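import Vale.Agent.P141.H782.Top2
import Vale.Agent.P141.H347.Cell5

/-!
# P141, line W, module T1: the level process on the cells

`used`: the cells whose ancestors all have local energy at most `4` (in all four slots);
`lp`: the paths of all the levels (module M1a, `H347`), for a family `LSys` of systems;
`levelSysB_of_steps`: `LevelSysB` from the first level and the steps.
-/

namespace Vale.Agent.P141.H782

open Finset
open Vale.Agent.P141.H315 (Grid dot)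
open Vale.Agent.P141.PL (Pt el fc lift Bx iv)
open Vale.Agent.P141.PL.H315 (le cube3 wt Tri atm)
open Vale.Agent.P141.PL.H314 (nd Win nd_congr)
open Vale.Agent.P141.PL.H571 (W)
open Vale.Agent.P141.PL.H318 (CSys T T_unif a1)
open Vale.Agent.P141.PL.H95 (gr gr_cube mem_gr card_gr W_sub mem_W shf Al Al_congr rst al_window
  cube_eq_of_mem)
open Vale.Agent.P141.PL.H855 (Bel Bad wN Dat gd gdU mem_gd mem_gdU LvSysB LevelSysB RootQ)
open Vale.Agent.P141.H347 (LW Hyp Pth pV pH pR pM exists_pth cd)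

noncomputable section

/-- the grid of the type `b` -/
abbrev gb (n : ℕ) (b : Bool) : Grid ℤ := gr 7 (shf (n + 7) b)

/-- the used cells of the level process -/
def used (n K : ℕ) (V : ℤ) (f : Fin 4 → ℤ → ℝ) (b : Bool) (k : ℕ) (x : ℤ) : Prop :=
  ∀ i, Al (gb n b) K (rst K V (f i)) k x

theorem used_congr {n K : ℕ} {V : ℤ} {f : Fin 4 → ℤ → ℝ} {b : Bool} {k : ℕ} {x y : ℤ}
    (h : y ∈ (gb n b).cube k x) : used n K V f b k y ↔ used n K V f b k x :=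
  forall_congr' fun _ => Al_congr h

/-- the hypotheses of the one-cell process -/
theorem hyp_used (n K : ℕ) (V : ℤ) (f : Fin 4 → ℤ → ℝ) (b : Bool) (i : Fin 4) :
    Hyp (gb n b) K 4 (rst K V (f i)) (used n K V f b) where
  e_pos := by norm_num
  const k x y h := used_congr h
  up k _ x h i := (h i).mono (Nat.le_succ k)
  energy k hk x h := by
    have h1 := h i k le_rfl hk
    unfold cd
    rw [show ((gb n b).cube k x).card = 2 ^ (k + 7) from card_gr _ _ _ _]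
    push_cast
    exact h1

/-- the cells of the nodes are used -/
theorem used_of_mem {q : ℝ} (hq : 2 < q) {n : ℕ} {H : ℝ} {f : Fin 4 → ℤ → ℝ} {o : ℤ} {K : ℕ}
    {V : ℤ} {𝒩 : Finset (ℕ × ℤ)} (hd : Dat q n H f o K V 𝒩) {N : ℕ × ℤ} (hN : N ∈ 𝒩) (b : Bool)
    {x : ℤ} (hx : x ∈ W N.1 N.2) : used n K V f b N.1 x := by
  intro i
  obtain ⟨h1, h2, h3⟩ := hd.root N hN
  have h4 := al_window (s := shf (n + 7) b) (n := K) h2 (v := N.2) (f := f i)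
    (fun l hl hl' => hd.l2 hq (hd.cl N hN l hl hl') i) (x := x) hx
  rwa [h3] at h4

theorem le_mem_W (N : ℕ × ℤ) : le N ∈ W N.1 N.2 := by
  rw [mem_W]
  unfold le
  have : (0 : ℤ) < 2 ^ N.1 := by positivity
  constructor
  · exact le_rfl
  · nlinarith

/-- a family of systems with local weights: level, type, slot -/
def LSys (n : ℕ) (ι : Type) : Type :=
  ℕ → (b : Bool) → Fin 4 → (S : CSys (gb n b) ι) × LW S

/-- the system -/
def LSys.S {n : ℕ} {ι : Type} (𝒮 : LSys n ι) (j : ℕ) (b : Bool) (i : Fin 4) : CSys (gb n b) ι :=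
  (𝒮 j b i).1

/-- the local weights -/
def LSys.w {n : ℕ} {ι : Type} (𝒮 : LSys n ι) (j : ℕ) (b : Bool) (i : Fin 4) : LW (𝒮.S j b i) :=
  (𝒮 j b i).2

/-- the path of the level `j`, the type `b`, the slot `i` -/
def lp {n : ℕ} {ι : Type} (𝒮 : LSys n ι) (K : ℕ) (V : ℤ) (f : Fin 4 → ℤ → ℝ) (j : ℕ) (b : Bool)
    (i : Fin 4) : ℕ → ℤ → ℝ :=
  pV (𝒮.w j b i) K 4 (rst K V (f i)) (used n K V f b)

/-- all the facts about the path -/
theorem pth_lp {n : ℕ} {ι : Type} (𝒮 : LSys n ι) (K : ℕ) (V : ℤ) (f : Fin 4 → ℤ → ℝ) (j : ℕ)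
    (b : Bool) (i : Fin 4) :
    Pth (𝒮.w j b i) K 4 (rst K V (f i)) (used n K V f b) (lp 𝒮 K V f j b i)
      (pH (𝒮.w j b i) K 4 (rst K V (f i)) (used n K V f b))
      (pR (𝒮.w j b i) K 4 (rst K V (f i)) (used n K V f b))
      (fun k => pM (𝒮.w j b i) K 4 (rst K V (f i)) (used n K V f b) k k) :=
  exists_pth _ (hyp_used n K V f b i)

/-- the systems contain the scalar tests of the level `δ j` -/
def Scal {n : ℕ} {ι : Type} (𝒮 : LSys n ι) (δ : ℕ → ℝ) (e : ℝ) : Prop :=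
  ∀ j b i k x, ∀ G : ℤ → ℝ, (∀ m, |dot ((gb n b).cube k x) G ((𝒮.S j b i).a k m)| ≤
    (𝒮.S j b i).W k ((gb n b).cube k x) m) →
    ∀ t : Pt × Tri, |dot ((gb n b).cube k x) G (a1 (fc i) k t)| ≤ wt (δ j) e (cube3 k t.1) t.2

/-- the residuals are uniform on the used cells -/
theorem lp_unif {n : ℕ} {ι : Type} {𝒮 : LSys n ι} {δ : ℕ → ℝ} {e : ℝ} (hs : Scal 𝒮 δ e)
    (K : ℕ) (V : ℤ) (f : Fin 4 → ℤ → ℝ) (j : ℕ) (b : Bool) (i : Fin 4) {k : ℕ} (hk : k ≤ K)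
    {x : ℤ} (hx : used n K V f b k x) (t : Pt × Tri) :
    |dot ((gb n b).cube k x) (lp 𝒮 K V f j b i k) (a1 (fc i) k t)| ≤
      wt (δ j) e (cube3 k t.1) t.2 := by
  refine hs j b i k x _ (fun m => ?_) t
  have h := (pth_lp 𝒮 K V f j b i).step k hk
  have h2 : dot ((gb n b).cube k x) (lp 𝒮 K V f j b i k) ((𝒮.S j b i).a k m) =
      dot ((gb n b).cube k x) (T (𝒮.S j b i) k
        (pH (𝒮.w j b i) K 4 (rst K V (f i)) (used n K V f b) k)) ((𝒮.S j b i).a k m) := by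
    unfold dot
    refine sum_congr rfl fun y hy => ?_
    rw [h y ((used_congr hy).2 hx)]
  rw [h2]
  exact T_unif _ _ _ _ _

/-- the local energy of the residuals on the used cells -/
theorem lp_energy {n : ℕ} {ι : Type} (𝒮 : LSys n ι) (K : ℕ) (V : ℤ) (f : Fin 4 → ℤ → ℝ) (j : ℕ)
    (b : Bool) (i : Fin 4) {k : ℕ} (hk : k ≤ K) {x : ℤ} (hx : used n K V f b k x) :
    dot ((gb n b).cube k x) (lp 𝒮 K V f j b i k) (lp 𝒮 K V f j b i k) ≤ 2 ^ 12 * 2 ^ k := by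
  refine ((pth_lp 𝒮 K V f j b i).enV k hk x hx).trans (le_of_eq ?_)
  unfold cd
  rw [show ((gb n b).cube k x).card = 2 ^ (k + 7) from card_gr _ _ _ _]
  push_cast
  rw [pow_add]
  ring

/-- the nodes of the type `b` which are free of the cells `𝒞` -/
def frN (n : ℕ) (b : Bool) (𝒩 𝒞 : Finset (ℕ × ℤ)) : Finset (ℕ × ℤ) := by
  classical exact 𝒩.filter fun N => ty n N = b ∧ Fre n b 𝒞 N

theorem mem_frN {n : ℕ} {b : Bool} {𝒩 𝒞 : Finset (ℕ × ℤ)} {N : ℕ × ℤ} :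
    N ∈ frN n b 𝒩 𝒞 ↔ N ∈ 𝒩 ∧ ty n N = b ∧ Fre n b 𝒞 N := by
  unfold frN; simp only [mem_filter]

/-- the families of bad cells of a step: scales at most `K`, small measure -/
structure BadC (K : ℕ) (β : ℝ) (𝒞 : Bool → Finset (ℕ × ℤ)) : Prop where
  cell : ∀ b, ∀ c ∈ 𝒞 b, c.1 ≤ K
  bad : ∀ b, ∑ c ∈ 𝒞 b, (2 : ℝ) ^ c.1 ≤ β * 2 ^ K

/-- **THE FIRST LEVEL** (for one datum): from `f` to the residuals of the level `j0`. -/
def FirstB {n : ℕ} {ι : Type} (𝒮 : LSys n ι) (ρ C : ℝ) (A j0 : ℕ) (E : ℝ) (f : Fin 4 → ℤ → ℝ)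
    (o : ℤ) (K : ℕ) (V : ℤ) (𝒩 : Finset (ℕ × ℤ)) : Prop :=
  ∃ 𝒞 : Bool → Finset (ℕ × ℤ), BadC K (C * ρ ^ j0) 𝒞 ∧ ∀ b i, ∑ N ∈ frN n b 𝒩 (𝒞 b),
    |nd o N.1 N.2 (rl f (fun m => lp 𝒮 K V f j0 b m N.1) i)| ≤
      (C * 2 ^ (A * j0) + C * ρ ^ j0 * E) * 2 ^ K

/-- **ONE STEP** (for one datum): from the residuals of the level `j` to those of the level
`j + 1`. -/
def StepB {n : ℕ} {ι : Type} (𝒮 : LSys n ι) (ρ C : ℝ) (j : ℕ) (E : ℝ) (f : Fin 4 → ℤ → ℝ)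
    (o : ℤ) (K : ℕ) (V : ℤ) (𝒩 : Finset (ℕ × ℤ)) : Prop :=
  ∃ 𝒞 : Bool → Finset (ℕ × ℤ), BadC K (C * ρ ^ j) 𝒞 ∧ ∀ b i, ∑ N ∈ frN n b 𝒩 (𝒞 b),
    |nd o N.1 N.2 (rl (fun m => lp 𝒮 K V f j b m N.1) (fun m => lp 𝒮 K V f (j + 1) b m N.1) i)| ≤
      C * ρ ^ j * E * 2 ^ K

/-- what T2 has to deliver -/
def TopHyp (q γ : ℝ) : Prop := ∃ A C0 : ℕ, 1 ≤ C0 ∧ (A : ℝ) ≤ γ * C0 ∧ ∃ ρ C e : ℝ, 0 ≤ ρ ∧
  ρ < 1 ∧ 0 ≤ C ∧ 0 ≤ e ∧ e ≤ 1 ∧ ∀ j0 : ℕ, 1 ≤ j0 → ∀ (n : ℕ) (P : ℝ), 0 ≤ P →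
    (∀ H' : ℝ, 1 ≤ H' → RootQ q n H' (P * H' ^ γ)) → ∀ H : ℝ, 1 ≤ H → H ≤ 2 ^ (C0 * j0) →
    ∃ (δ : ℕ → ℝ) (ι : Type) (𝒮 : LSys n ι), (∀ j, 0 ≤ δ j) ∧
      (∀ ε : ℝ, 0 < ε → ∃ J, ∀ j, J ≤ j → δ j ≤ ε) ∧ Scal 𝒮 δ e ∧
      ∀ f o K V 𝒩, Dat q n H f o K V 𝒩 →
        FirstB 𝒮 ρ C A j0 ((1 + P) * H ^ γ) f o K V 𝒩 ∧
        ∀ j, j0 ≤ j → StepB 𝒮 ρ C j ((1 + P) * H ^ γ) f o K V 𝒩

/-- **T1**: the level systems from the first level and the steps. -/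
theorem levelSysB_of_topHyp {q γ : ℝ} (hq : 2 < q) (h : TopHyp q γ) : LevelSysB q γ := by
  obtain ⟨A, C0, hC0, hA, ρ, C, e, hρ0, hρ1, hC, he0, he1, h⟩ := h
  refine ⟨A, C0, hC0, hA, ρ, 2 ^ 9 * (C + C * ρ⁻¹ + 2 ^ 12), hρ0, hρ1, ?_, ?_⟩
  · have := inv_nonneg.2 hρ0
    positivity
  intro j0 hj0 n P hP hroot H hH1 hH f o K V 𝒩 hd
  obtain ⟨δ, ι, 𝒮, hδ0, hδ, hsc, h⟩ := h j0 hj0 n P hP hroot H hH1 hH
  obtain ⟨hF, hS⟩ := h f o K V 𝒩 hd
  have hE : 0 ≤ (1 + P) * H ^ γ := by positivity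
  set E := (1 + P) * H ^ γ with hEd
  obtain ⟨𝒞0, hb0, hf0⟩ := hF
  have hS' : ∀ j, ∃ 𝒞 : Bool → Finset (ℕ × ℤ), j0 ≤ j → BadC K (C * ρ ^ j) 𝒞 ∧
      ∀ b i, ∑ N ∈ frN n b 𝒩 (𝒞 b), |nd o N.1 N.2 (rl (fun m => lp 𝒮 K V f j b m N.1)
        (fun m => lp 𝒮 K V f (j + 1) b m N.1) i)| ≤ C * ρ ^ j * E * 2 ^ K := by
    intro j
    by_cases hj : j0 ≤ j
    · obtain ⟨𝒞, h1, h2⟩ := hS j hj
      exact ⟨𝒞, fun _ => ⟨h1, h2⟩⟩
    · exact ⟨fun _ => ∅, fun h => absurd h hj⟩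
  choose 𝒞s h𝒞s using hS'
  -- the bad cells of the level `j`: those of the step `j - 1 → j`
  set 𝒞 : ℕ → Bool → Finset (ℕ × ℤ) := fun j b => if j ≤ j0 then 𝒞0 b else 𝒞s (j - 1) b with h𝒞
  have hρi := inv_nonneg.2 hρ0
  have hCC : C ≤ C + C * ρ⁻¹ + 2 ^ 12 := by
    have := mul_nonneg hC hρi
    linarith
  have hCC0 : 0 ≤ C + C * ρ⁻¹ + 2 ^ 12 := by positivity
  refine ⟨_, _, lvSysB_of_paths (e := e) (δ := δ) (R := fun j b i => lp 𝒮 K V f j b i) (𝒞 := 𝒞)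
    hd hρ0 hCC0 hE ?_⟩
  have husd : ∀ N ∈ 𝒩, used n K V f (ty n N) N.1 (le N) := fun N hN =>
    used_of_mem hq hd hN _ (le_mem_W N)
  refine ⟨he0, he1, hδ0, hδ, ?_, ?_, ?_, ?_, ?_, ?_⟩
  · intro j b c hc
    by_cases hj : j ≤ j0
    · simp only [h𝒞, if_pos hj] at hc
      exact hb0.cell b c hc
    · simp only [h𝒞, if_neg hj] at hc
      exact (h𝒞s (j - 1) (by omega)).1.cell b c hc
  · intro j hj b
    by_cases hj' : j ≤ j0
    · have : j = j0 := le_antisymm hj' hj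
      subst this
      simp only [h𝒞, le_refl, if_true]
      refine (hb0.bad b).trans ?_
      have := pow_nonneg hρ0 j
      gcongr
    · simp only [h𝒞, if_neg hj']
      refine ((h𝒞s (j - 1) (by omega)).1.bad b).trans ?_
      obtain ⟨i, rfl⟩ : ∃ i, j = i + 1 := ⟨j - 1, by omega⟩
      have h1 : i + 1 - 1 = i := by omega
      rw [h1]
      refine mul_le_mul_of_nonneg_right ?_ (by positivity)
      rcases hρ0.eq_or_lt with h0 | h0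
      · -- `ρ = 0`
        rw [← h0]
        have : i ≠ 0 := by omega
        rw [zero_pow this, zero_pow (by omega)]
        simp
      · have h2 : C * ρ ^ i = C * ρ⁻¹ * ρ ^ (i + 1) := by
          rw [pow_succ]; field_simp
        rw [h2]
        refine mul_le_mul_of_nonneg_right ?_ (by positivity)
        linarith
  · intro j _ N hN _ t
    exact lp_unif hsc K V f j (ty n N) 0 (hd.root N hN).2.1 (husd N hN) t
  · intro j _ N hN _ i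
    refine (lp_energy 𝒮 K V f j (ty n N) i (hd.root N hN).2.1 (husd N hN)).trans ?_
    have := mul_nonneg hC hρi
    refine mul_le_mul_of_nonneg_right ?_ (by positivity)
    linarith
  · intro b i
    have hsub : gdN n b 𝒩 (fun j => 𝒞 j b) j0 j0 ⊆ frN n b 𝒩 (𝒞0 b) := by
      intro N hN
      obtain ⟨h1, h2, h3⟩ := mem_gdN.1 hN
      refine mem_frN.2 ⟨h1, h2, ?_⟩
      have h4 := h3 j0 le_rfl le_rfl
      simpa only [h𝒞, le_refl, if_true] using h4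
    refine (sum_le_sum_of_subset_of_nonneg hsub fun _ _ _ => abs_nonneg _).trans
      ((hf0 b i).trans ?_)
    have := pow_nonneg hρ0 j0
    gcongr
  · intro j hj b i
    have hsub : gdN n b 𝒩 (fun j => 𝒞 j b) j0 (j + 1) ⊆ frN n b 𝒩 (𝒞s j b) := by
      intro N hN
      obtain ⟨h1, h2, h3⟩ := mem_gdN.1 hN
      refine mem_frN.2 ⟨h1, h2, ?_⟩
      have h4 := h3 (j + 1) (by omega) le_rfl
      have h5 : ¬ j + 1 ≤ j0 := by omega
      simpa only [h𝒞, if_neg h5, Nat.add_sub_cancel] using h4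
    refine (sum_le_sum_of_subset_of_nonneg hsub fun _ _ _ => abs_nonneg _).trans
      (((h𝒞s j hj).2 b i).trans ?_)
    have := pow_nonneg hρ0 j
    gcongr

end

end Vale.Agent.P141.H782
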