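import Vale.Agent.P141.H460.AffFam

/-!
# P141, line (A): the moving slot and the static masses at the affected squares, shifted grids

Points `x = (x0, x1, x3)`, cells `cb k m`, `cx k x`. `Q k m` : the square `(m.2.1, m.2.2)` of scale
`k` is affected over the cell `m.1` of `x0`.

* `nb Q` : one of the nine neighbours (in `x1`, `x3`) is affected; `nb_pack` : its packing;
* `sq Q a b` : the square of the grid shifted by `a` in `x1`, `b` in `x3`, which contains the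
  point, meets an affected square; `sq_nb`;
* `static_any`, `aff_any` : static masses and energies of the moving slot at the nodes of any
  predicate with packing, local bounds only on the squares which are not dead at the time `k + 1`;
* `aff_two` : the same for the mean slot, up to the deviation.
-/

namespace Vale.Agent.P141.H782

open Finset Matrix
open Vale.Agent.P141.PL (Pt iv ix cb cx mem_iv mem_cb card_iv card_cb ix_ix)
open Vale.Agent.P141.H460 (GPack LPack Lin Mrt slot_aff wV_sum)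

noncomputable section

open scoped Classical

/-! ### Translations -/

theorem bd_ix (k : ℕ) (x : ℤ) : 2 ^ k * ix k x ≤ x ∧ x < 2 ^ k * ix k x + 2 ^ k := by
  have h := (mem_iv (k := k) (m := ix k x) (x := x)).2 rfl
  unfold PL.iv at h
  rw [mem_Ico] at h
  exact ⟨h.1, by linarith [h.2]⟩

theorem ix_near {k : ℕ} {x y : ℤ} (h : |x - y| ≤ 2 ^ k) : |ix k x - ix k y| ≤ 1 := by
  obtain ⟨h1, h2⟩ := bd_ix k x
  obtain ⟨h3, h4⟩ := bd_ix k y
  have hp : (0 : ℤ) < 2 ^ k := by positivity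
  rw [abs_le] at h ⊢
  constructor
  · by_contra hc
    push Not at hc
    have : ix k x + 2 ≤ ix k y := by omega
    nlinarith
  · by_contra hc
    push Not at hc
    have : ix k y + 2 ≤ ix k x := by omega
    nlinarith

theorem ix_add (k : ℕ) (x d : ℤ) : ix k (x + 2 ^ k * d) = ix k x + d := by
  obtain ⟨h1, h2⟩ := bd_ix k x
  rw [← mem_iv]
  unfold PL.iv
  rw [mem_Ico]
  constructor
  · linarith [mul_add ((2 : ℤ) ^ k) (ix k x) d]
  · linarith [mul_add ((2 : ℤ) ^ k) (ix k x) d]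

/-- a translated cell lies in three cells -/
theorem sh1 {k : ℕ} (m : ℤ) {a : ℤ} (ha : |a| ≤ 2 ^ k) (f : ℤ → ℝ) (hf : ∀ y, 0 ≤ f y) :
    ∑ y ∈ iv k m, f (y + a) ≤ ∑ e ∈ Icc (-1 : ℤ) 1, ∑ y ∈ iv k (m + e), f y := by
  have h1 : ∑ y ∈ iv k m, f (y + a) = ∑ y ∈ (iv k m).image (fun y => y + a), f y := by
    rw [sum_image]
    intro x _ y _ h
    simpa using h
  have h2 : (iv k m).image (fun y => y + a) ⊆
      (Icc (-1 : ℤ) 1).biUnion fun e => iv k (m + e) := by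
    intro y hy
    rw [mem_image] at hy
    obtain ⟨x, hx, rfl⟩ := hy
    rw [mem_iv] at hx
    have h3 := ix_near (k := k) (x := x + a) (y := x) (by rw [add_sub_cancel_left]; exact ha)
    rw [abs_le] at h3
    rw [mem_biUnion]
    refine ⟨ix k (x + a) - m, mem_Icc.2 ⟨by omega, by omega⟩, ?_⟩
    rw [mem_iv]
    ring
  have h3 : ∑ y ∈ (Icc (-1 : ℤ) 1).biUnion (fun e => iv k (m + e)), f y =
      ∑ e ∈ Icc (-1 : ℤ) 1, ∑ y ∈ iv k (m + e), f y := by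
    refine sum_biUnion ?_
    intro e _ e' _ hne
    rw [Function.onFun, disjoint_left]
    intro y hy hy'
    rw [mem_iv] at hy hy'
    exact hne (by omega)
  rw [h1, ← h3]
  exact sum_le_sum_of_subset_of_nonneg h2 fun y _ _ => hf y

theorem sh2 {k : ℕ} (m : Pt) {a b : ℤ} (ha : |a| ≤ 2 ^ k) (hb : |b| ≤ 2 ^ k) (f : Pt → ℝ)
    (hf : ∀ y, 0 ≤ f y) :
    ∑ y ∈ cb k m, f (y.1, y.2.1 + a, y.2.2 + b) ≤ ∑ e ∈ Icc (-1 : ℤ) 1, ∑ e' ∈ Icc (-1 : ℤ) 1,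
      ∑ y ∈ cb k (m.1, m.2.1 + e, m.2.2 + e'), f y := by
  have h0 : ∀ y0 : ℤ, ∑ y1 ∈ iv k m.2.1, ∑ y3 ∈ iv k m.2.2, f (y0, y1 + a, y3 + b) ≤
      ∑ e ∈ Icc (-1 : ℤ) 1, ∑ e' ∈ Icc (-1 : ℤ) 1, ∑ y1 ∈ iv k (m.2.1 + e),
        ∑ y3 ∈ iv k (m.2.2 + e'), f (y0, y1, y3) := by
    intro y0
    refine (sum_le_sum fun y1 _ => sh1 m.2.2 hb (fun y3 => f (y0, y1 + a, y3))
      fun y => hf _).trans ?_
    refine (sh1 m.2.1 ha (fun y1 => ∑ e' ∈ Icc (-1 : ℤ) 1, ∑ y3 ∈ iv k (m.2.2 + e'),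
      f (y0, y1, y3)) fun y => sum_nonneg fun _ _ => sum_nonneg fun _ _ => hf _).trans ?_
    refine le_of_eq (sum_congr rfl fun e _ => ?_)
    rw [sum_comm]
  have h1 : ∑ y ∈ cb k m, f (y.1, y.2.1 + a, y.2.2 + b) =
      ∑ y0 ∈ iv k m.1, ∑ y1 ∈ iv k m.2.1, ∑ y3 ∈ iv k m.2.2, f (y0, y1 + a, y3 + b) := by
    unfold PL.cb
    rw [sum_product]
    refine sum_congr rfl fun y0 _ => ?_
    rw [sum_product]
  rw [h1]
  refine (sum_le_sum fun y0 _ => h0 y0).trans (le_of_eq ?_)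
  rw [sum_comm]
  refine sum_congr rfl fun e _ => ?_
  rw [sum_comm]
  refine sum_congr rfl fun e' _ => ?_
  unfold PL.cb
  rw [sum_product]
  refine sum_congr rfl fun y0 _ => ?_
  rw [sum_product]

/-! ### Neighbours -/

theorem card3 : (Icc (-1 : ℤ) 1).card = 3 := rfl

/-- one of the nine neighbours is affected -/
def nb (Q : ℕ → Pt → Prop) (k : ℕ) (m : Pt) : Prop :=
  ∃ d ∈ Icc (-1 : ℤ) 1, ∃ d' ∈ Icc (-1 : ℤ) 1, Q k (m.1, m.2.1 + d, m.2.2 + d')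

theorem nb_pack {Q : ℕ → Pt → Prop} {K : ℕ} {P : ℝ} (h : GPack Q K P) :
    GPack (nb Q) K (81 * P) := by
  intro k hk m
  have h1 : ∀ y : Pt, ∀ j ∈ range (k + 1), (if nb Q j (cx j y) then (1 : ℝ) else 0) ≤
      ∑ d ∈ Icc (-1 : ℤ) 1, ∑ d' ∈ Icc (-1 : ℤ) 1,
        (if Q j (cx j (y.1, y.2.1 + 2 ^ j * d, y.2.2 + 2 ^ j * d')) then (1 : ℝ) else 0) := by
    intro y j _
    have h0 : ∀ d ∈ Icc (-1 : ℤ) 1, 0 ≤ ∑ d' ∈ Icc (-1 : ℤ) 1,
        (if Q j (cx j (y.1, y.2.1 + 2 ^ j * d, y.2.2 + 2 ^ j * d')) then (1 : ℝ) else 0) :=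
      fun d _ => sum_nonneg fun d' _ => by split_ifs <;> norm_num
    split_ifs with hq
    · obtain ⟨d, hd, d', hd', hq'⟩ := hq
      refine le_trans ?_ (single_le_sum h0 hd)
      refine le_trans ?_ (single_le_sum (fun d' _ => by split_ifs <;> norm_num) hd')
      have e : cx j (y.1, y.2.1 + 2 ^ j * d, y.2.2 + 2 ^ j * d') =
          ((cx j y).1, (cx j y).2.1 + d, (cx j y).2.2 + d') := by
        unfold PL.cx
        simp only
        rw [ix_add, ix_add]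
      rw [e, if_pos hq']
    · exact sum_nonneg h0
  have h2 : ∀ d ∈ Icc (-1 : ℤ) 1, ∀ d' ∈ Icc (-1 : ℤ) 1, ∑ y ∈ cb k m, ∑ j ∈ range (k + 1),
      (if Q j (cx j (y.1, y.2.1 + 2 ^ j * d, y.2.2 + 2 ^ j * d')) then (1 : ℝ) else 0) ≤
      9 * (P * 8 ^ k) := by
    intro d hd d' hd'
    rw [sum_comm]
    have hdd : ∀ {x : ℤ}, x ∈ Icc (-1 : ℤ) 1 → ∀ j ∈ range (k + 1),
        |(2 : ℤ) ^ j * x| ≤ 2 ^ k := by
      intro x hx j hj
      rw [mem_Icc] at hx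
      rw [mem_range] at hj
      have h3 : (2 : ℤ) ^ j ≤ 2 ^ k := pow_le_pow_right₀ (by norm_num) (by omega)
      have h4 : (0 : ℤ) < 2 ^ j := by positivity
      rw [abs_mul, abs_of_pos h4]
      have h5 : |x| ≤ 1 := abs_le.2 ⟨hx.1, hx.2⟩
      nlinarith [abs_nonneg x]
    have h3 : ∀ j ∈ range (k + 1), ∑ y ∈ cb k m,
        (if Q j (cx j (y.1, y.2.1 + 2 ^ j * d, y.2.2 + 2 ^ j * d')) then (1 : ℝ) else 0) ≤
        ∑ e ∈ Icc (-1 : ℤ) 1, ∑ e' ∈ Icc (-1 : ℤ) 1, ∑ y ∈ cb k (m.1, m.2.1 + e, m.2.2 + e'),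
          (if Q j (cx j y) then (1 : ℝ) else 0) := fun j hj =>
      sh2 m (hdd hd j hj) (hdd hd' j hj) (fun y => if Q j (cx j y) then (1 : ℝ) else 0)
        fun y => by split_ifs <;> norm_num
    refine (sum_le_sum h3).trans ?_
    rw [sum_comm]
    have h4 : ∀ e ∈ Icc (-1 : ℤ) 1, ∑ j ∈ range (k + 1), ∑ e' ∈ Icc (-1 : ℤ) 1,
        ∑ y ∈ cb k (m.1, m.2.1 + e, m.2.2 + e'), (if Q j (cx j y) then (1 : ℝ) else 0) ≤
        3 * (P * 8 ^ k) := by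
      intro e _
      rw [sum_comm]
      have h5 : ∀ e' ∈ Icc (-1 : ℤ) 1, ∑ j ∈ range (k + 1),
          ∑ y ∈ cb k (m.1, m.2.1 + e, m.2.2 + e'), (if Q j (cx j y) then (1 : ℝ) else 0) ≤
          P * 8 ^ k := by
        intro e' _
        rw [sum_comm]
        exact h k hk _
      refine (sum_le_sum h5).trans (le_of_eq ?_)
      rw [sum_const, nsmul_eq_mul, card3]
      push_cast
      ring
    refine (sum_le_sum h4).trans (le_of_eq ?_)
    rw [sum_const, nsmul_eq_mul, card3]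
    push_cast
    ring
  refine (sum_le_sum fun y _ => sum_le_sum fun j hj => h1 y j hj).trans ?_
  have e1 : ∑ y ∈ cb k m, ∑ j ∈ range (k + 1), ∑ d ∈ Icc (-1 : ℤ) 1, ∑ d' ∈ Icc (-1 : ℤ) 1,
      (if Q j (cx j (y.1, y.2.1 + 2 ^ j * d, y.2.2 + 2 ^ j * d')) then (1 : ℝ) else 0) =
      ∑ d ∈ Icc (-1 : ℤ) 1, ∑ d' ∈ Icc (-1 : ℤ) 1, ∑ y ∈ cb k m, ∑ j ∈ range (k + 1),
      (if Q j (cx j (y.1, y.2.1 + 2 ^ j * d, y.2.2 + 2 ^ j * d')) then (1 : ℝ) else 0) := by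
    have e2 : ∀ y ∈ cb k m, ∑ j ∈ range (k + 1), ∑ d ∈ Icc (-1 : ℤ) 1, ∑ d' ∈ Icc (-1 : ℤ) 1,
        (if Q j (cx j (y.1, y.2.1 + 2 ^ j * d, y.2.2 + 2 ^ j * d')) then (1 : ℝ) else 0) =
        ∑ d ∈ Icc (-1 : ℤ) 1, ∑ d' ∈ Icc (-1 : ℤ) 1, ∑ j ∈ range (k + 1),
        (if Q j (cx j (y.1, y.2.1 + 2 ^ j * d, y.2.2 + 2 ^ j * d')) then (1 : ℝ) else 0) := by
      intro y _
      rw [sum_comm]
      exact sum_congr rfl fun d _ => sum_comm
    rw [sum_congr rfl e2, sum_comm]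
    exact sum_congr rfl fun d _ => sum_comm
  rw [e1]
  refine (sum_le_sum fun d hd => sum_le_sum fun d' hd' => h2 d hd d' hd').trans (le_of_eq ?_)
  rw [sum_const, sum_const, nsmul_eq_mul, nsmul_eq_mul, card3]
  push_cast
  ring

/-- the square of scale `k` of the grid shifted by `a` in `x1` and `b` in `x3` which contains the
point meets an affected square -/
def sq (Q : ℕ → Pt → Prop) (a b : ℤ) (k : ℕ) (x : Pt) : Prop :=
  ∃ y1 y3 : ℤ, ix k (y1 - a) = ix k (x.2.1 - a) ∧ ix k (y3 - b) = ix k (x.2.2 - b) ∧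
    Q k (cx k (x.1, y1, y3))

theorem ix_sh {k : ℕ} {a x y : ℤ} (h : ix k (y - a) = ix k (x - a)) :
    |ix k y - ix k x| ≤ 1 := by
  refine ix_near ?_
  obtain ⟨h1, h2⟩ := bd_ix k (y - a)
  obtain ⟨h3, h4⟩ := bd_ix k (x - a)
  rw [h] at h1 h2
  rw [abs_le]
  constructor <;> linarith

theorem sq_nb {Q : ℕ → Pt → Prop} {a b : ℤ} {k : ℕ} {x : Pt} (h : sq Q a b k x) :
    nb Q k (cx k x) := by
  obtain ⟨y1, y3, h1, h3, hq⟩ := h
  have a1 := abs_le.1 (ix_sh h1)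
  have a3 := abs_le.1 (ix_sh h3)
  refine ⟨ix k y1 - ix k x.2.1, mem_Icc.2 ⟨by linarith [a1.1], by linarith [a1.2]⟩,
    ix k y3 - ix k x.2.2, mem_Icc.2 ⟨by linarith [a3.1], by linarith [a3.2]⟩, ?_⟩
  have e : ((cx k x).1, (cx k x).2.1 + (ix k y1 - ix k x.2.1),
      (cx k x).2.2 + (ix k y3 - ix k x.2.2)) = cx k (x.1, y1, y3) := by
    unfold PL.cx
    simp only [add_sub_cancel]
  rw [e]
  exact hq

/-! ### The numbers -/

/-- the nodes of `A` of scale less than `K` which are not dead -/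
def lv (K : ℕ) (A D : ℕ → Pt → Prop) (k : ℕ) (m : Pt) : Prop := k < K ∧ A k m ∧ ¬ D k m

theorem lv_pack {A D : ℕ → Pt → Prop} {K : ℕ} {P : ℝ} (h : GPack A K P) :
    GPack (lv K A D) K P := h.mono fun _ _ h => h.2.1

section num

variable {A D : ℕ → Pt → Prop} {K : ℕ} {P : ℝ}

/-- sums over the affected points, from the ones over the live affected nodes -/
theorem any_le (M : Pt) {S : ℕ → Pt → Prop} (hS : ∀ k < K, ∀ x ∈ cb K M, S k x → A k (cx k x))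
    {f : ℕ → Pt → ℝ} (hf : ∀ k x, 0 ≤ f k x)
    (hD : ∀ k < K, ∀ x ∈ cb K M, D k (cx k x) → f k x = 0) :
    ∑ k ∈ range K, ∑ x ∈ cb K M, (if S k x then f k x else 0) ≤
      ∑ k ∈ range (K + 1), ∑ x ∈ cb K M, (if lv K A D k (cx k x) then f k x else 0) := by
  have hsub : range K ⊆ range (K + 1) := range_subset_range.2 (Nat.le_succ K)
  refine le_trans (sum_le_sum fun k hk => sum_le_sum fun x hx => ?_)
    (sum_le_sum_of_subset_of_nonneg hsub fun k _ _ => sum_nonneg fun x _ => ?_)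
  · have hk' := mem_range.1 hk
    by_cases h2 : S k x
    · by_cases hd : D k (cx k x)
      · rw [hD k hk' x hx hd, ite_self, ite_self]
      · rw [if_pos h2, if_pos (show lv K A D k (cx k x) from ⟨hk', hS k hk' x hx h2, hd⟩)]
    · rw [if_neg h2]
      split_ifs
      · exact hf k x
      · exact le_rfl
  · split_ifs
    · exact hf k x
    · exact le_rfl

/-- **Static masses at the affected nodes**, `A` : affected, `D k m` : dead at the time `k + 1`,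
there `f k = 0`; `S` : any condition on points which implies `A`. -/
theorem static_any (hA : GPack A K P) (M : Pt) {S : ℕ → Pt → Prop}
    (hS : ∀ k < K, ∀ x ∈ cb K M, S k x → A k (cx k x)) {f : ℕ → Pt → ℝ} (hf : ∀ k x, 0 ≤ f k x)
    (hD : ∀ k < K, ∀ x ∈ cb K M, D k (cx k x) → f k x = 0) {T : ℝ} (hT0 : 0 ≤ T)
    (hT : ∀ k < K, ∀ x ∈ cb K M, A k (cx k x) → ¬ D k (cx k x) →
      ∑ y ∈ cb k (cx k x), f k y ≤ T * 8 ^ k) :
    ∑ k ∈ range K, ∑ x ∈ cb K M, (if S k x then f k x else 0) ≤ T * (P * 8 ^ K) := by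
  have h0 := lv_pack (D := D) hA
  have h2 : ∀ k ≤ K, ∀ x ∈ cb K M, lv K A D k (cx k x) →
      ∑ y ∈ cb k (cx k x), f k y ≤ T * 8 ^ k := by
    intro k _ x hx ha
    obtain ⟨a1, a2, a3⟩ := ha
    exact hT k a1 x hx a2 a3
  exact (any_le M hS hf hD).trans (wV_sum (A := lv K A D) (h0 K le_rfl M) hT0 f h2)

variable {κ : Type*} [Fintype κ]

/-- **The moving slot at the affected nodes**, any predicate `A` with packing. `V x1 x3 k m` : the
slot applied to the vector of the points `x1`, `x3`, a martingale in `x0` (any generation);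
`Z (k + 1)` : the scalar factor at the time `k + 1`; `D k m` : dead at the time `k + 1`, there
`Z (k + 1) = 0`; `τ` : crude bound of the energies of the slot on the squares not dead. -/
theorem aff_any (hA : GPack A K P) (hP : 0 ≤ P) (M : Pt) {S : ℕ → Pt → Prop}
    (hS : ∀ k < K, ∀ x ∈ cb K M, S k x → A k (cx k x)) {Z : ℕ → Pt → ℝ}
    (hD : ∀ k < K, ∀ x ∈ cb K M, D k (cx k x) → Z (k + 1) x = 0) {e : ℝ} (he : 0 ≤ e)
    (hl0 : ∀ k < K, ∀ m x y : ℤ, ∑ z ∈ iv k m, Z (k + 1) (z, x, y) ^ 2 ≤ e * 2 ^ k)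
    {V : ℤ → ℤ → ℕ → ℤ → κ → ℝ} (hV : ∀ x1 x3, Mrt K (V x1 x3)) {h : ℕ} (hh : 1 ≤ h)
    (hPh : 2 * P ≤ h) (q : ℕ) {τ : ℝ} (hτ : 0 ≤ τ)
    (hτm : ∀ k < K, ∀ x ∈ cb K M, A k (cx k x) → ¬ D k (cx k x) → ∑ y1 ∈ iv k (ix k x.2.1),
      ∑ y3 ∈ iv k (ix k x.2.2), (V y1 y3 k (ix k x.1) ⬝ᵥ V y1 y3 k (ix k x.1)) ≤ τ * 4 ^ k) :
    ∑ k ∈ range K, ∑ x ∈ cb K M, (if S k x then Z (k + 1) x ^ 2 *
      (V x.2.1 x.2.2 k (ix k x.1) ⬝ᵥ V x.2.1 x.2.2 k (ix k x.1)) else 0) ≤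
      (1 + h * q) * ∑ x ∈ cb K M, e * (V x.2.1 x.2.2 0 x.1 ⬝ᵥ V x.2.1 x.2.2 0 x.1) +
        e * τ * P * (1 / 2) ^ q * 8 ^ K := by
  have h0 := lv_pack (D := D) hA
  have hL : Lin K e (fun k x => if k < K then Z (k + 1) x else 0) := by
    intro k _ m x1 x3
    have hpos : 0 ≤ e * 2 ^ k := by positivity
    rcases lt_or_ge k K with hkK | hkK
    · simp only [if_pos hkK]
      exact hl0 k hkK m x1 x3
    · simp only [if_neg (not_lt.2 hkK)]
      simpa using hpos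
  have h2 : ∀ k ≤ K, ∀ x ∈ cb K M, lv K A D k (cx k x) → ∑ y1 ∈ iv k (ix k x.2.1),
      ∑ y3 ∈ iv k (ix k x.2.2), (V y1 y3 k (ix k x.1) ⬝ᵥ V y1 y3 k (ix k x.1)) ≤ τ * 4 ^ k := by
    intro k _ x hx ha
    obtain ⟨a1, a2, a3⟩ := ha
    exact hτm k a1 x hx a2 a3
  have h1 := slot_aff (A := lv K A D) (h0.lp M) hP hh hPh q he hτ hL hV h2
  refine le_trans ?_ h1
  refine (any_le (A := A) (D := D) (f := fun k x => Z (k + 1) x ^ 2 *
      (V x.2.1 x.2.2 k (ix k x.1) ⬝ᵥ V x.2.1 x.2.2 k (ix k x.1))) M hS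
    (fun k x => mul_nonneg (sq_nonneg _) (H460.nsq_nonneg _)) ?_).trans (le_of_eq ?_)
  · intro k hk x hx hd
    rw [hD k hk x hx hd]
    ring
  · refine sum_congr rfl fun k _ => sum_congr rfl fun x _ => ?_
    by_cases ha : lv K A D k (cx k x)
    · rw [if_pos ha, if_pos ha]
      simp only [if_pos ha.1]
    · rw [if_neg ha, if_neg ha]

/-- **The mean slot at the affected nodes**: `W k x` any vector, `W' k x` the exact slot, `dev` the
sum of the squares of the differences. -/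
theorem aff_two (M : Pt) (S : ℕ → Pt → Prop) (W W' : ℕ → Pt → κ → ℝ) {E dev : ℝ}
    (h1 : ∑ k ∈ range K, ∑ x ∈ cb K M, (if S k x then W' k x ⬝ᵥ W' k x else 0) ≤ E)
    (h2 : ∑ k ∈ range K, ∑ x ∈ cb K M, (W' k x - W k x) ⬝ᵥ (W' k x - W k x) ≤ dev) :
    ∑ k ∈ range K, ∑ x ∈ cb K M, (if S k x then W k x ⬝ᵥ W k x else 0) ≤ 2 * E + 2 * dev := by
  have h3 : ∀ k x, (if S k x then W k x ⬝ᵥ W k x else 0) ≤
      2 * (if S k x then W' k x ⬝ᵥ W' k x else 0) +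
        2 * ((W' k x - W k x) ⬝ᵥ (W' k x - W k x)) := by
    intro k x
    have hn := H460.nsq_nonneg (W' k x - W k x)
    split_ifs
    · have h4 := H460.nsq_nonneg (W' k x + (W' k x - W k x))
      have h5 : W k x ⬝ᵥ W k x + (W' k x + (W' k x - W k x)) ⬝ᵥ (W' k x + (W' k x - W k x)) =
          2 * (W' k x ⬝ᵥ W' k x) + 2 * ((W' k x - W k x) ⬝ᵥ (W' k x - W k x)) := by
        simp only [add_dotProduct, dotProduct_add, sub_dotProduct, dotProduct_sub]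
        rw [dotProduct_comm (W k x) (W' k x)]
        ring
      linarith
    · linarith
  refine (sum_le_sum fun k _ => sum_le_sum fun x _ => h3 k x).trans ?_
  simp only [sum_add_distrib, ← mul_sum]
  linarith

end num

/-- **Own stops of the slot on a grid shifted in `x1` and `x3`** -/
theorem aff_sh {κ : Type*} [Fintype κ] {Q D : ℕ → Pt → Prop} {K : ℕ} {P : ℝ} (hQ : GPack Q K P)
    (hP : 0 ≤ P) (M : Pt) (a b : ℤ) {Z : ℕ → Pt → ℝ}
    (hD : ∀ k < K, ∀ x ∈ cb K M, D k (cx k x) → Z (k + 1) x = 0) {e : ℝ} (he : 0 ≤ e)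
    (hl0 : ∀ k < K, ∀ m x y : ℤ, ∑ z ∈ iv k m, Z (k + 1) (z, x, y) ^ 2 ≤ e * 2 ^ k)
    {V : ℤ → ℤ → ℕ → ℤ → κ → ℝ} (hV : ∀ x1 x3, Mrt K (V x1 x3)) {h : ℕ} (hh : 1 ≤ h)
    (hPh : 2 * (81 * P) ≤ h) (q : ℕ) {τ : ℝ} (hτ : 0 ≤ τ)
    (hτm : ∀ k < K, ∀ x ∈ cb K M, ¬ D k (cx k x) → ∑ y1 ∈ iv k (ix k x.2.1),
      ∑ y3 ∈ iv k (ix k x.2.2), (V y1 y3 k (ix k x.1) ⬝ᵥ V y1 y3 k (ix k x.1)) ≤ τ * 4 ^ k) :
    ∑ k ∈ range K, ∑ x ∈ cb K M, (if sq Q a b k x then Z (k + 1) x ^ 2 *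
      (V x.2.1 x.2.2 k (ix k x.1) ⬝ᵥ V x.2.1 x.2.2 k (ix k x.1)) else 0) ≤
      (1 + h * q) * ∑ x ∈ cb K M, e * (V x.2.1 x.2.2 0 x.1 ⬝ᵥ V x.2.1 x.2.2 0 x.1) +
        e * τ * (81 * P) * (1 / 2) ^ q * 8 ^ K :=
  aff_any (nb_pack hQ) (by positivity) M (fun _ _ _ _ h => sq_nb h) hD he hl0 hV hh hPh q hτ
    fun k hk x hx _ hd => hτm k hk x hx hd

end

end Vale.Agent.P141.H782
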