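import Vale.Agent.P141.H782.GlueAbs

/-!
# P141: MIXED GLUE for the one-variable system

`glue`: a function `G` on `ℤ` whose lift is `δ`-uniform (weights `Nm e`) on cells of the grid
`gr c0 σ` of DIFFERENT scales `≤ l` (every cell of the disjoint family `A`, all face cubes of the
scale of the cell) has a `432 (45 / e)^(3/2) δ`-uniform lift on all face cubes of scale `l`.
`glue_dot`: the same on a cell of scale `l`.
-/

namespace Vale.Agent.P141.H782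

open Finset
open Vale.Agent.P141.H315 (Grid dot)
open Vale.Agent.P141.PL (Pt el)
open Vale.Agent.P141.PL.H315 (cube3 mem_cube3 gz card_cube3 avg sum_avg_cubes iv mem_iv self_mem_iv
  e12 e13 e23 wt wt_nonneg Nm Nm_nonneg Tri mx mx_nonneg abs_le_mx mx_mono A2 A2_nonneg avg_e12
  avg_e13 avg_e23 atm card_iv avg_nonneg loomis_whitney)
open Vale.Agent.P141.PL.H95 (gr mem_gr card_gr)
open Vale.Agent.P141.PL.H318 (ixs csz mem_gs a1 dot_a1)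

noncomputable section

/-- the square of an edge function, cut to the square of scale `l` of `(a, b)` -/
def cut (u : ℤ × ℤ → ℝ) (l : ℕ) (a b : ℤ) (x y : ℤ) : ℝ :=
  if x / 2 ^ l = a / 2 ^ l ∧ y / 2 ^ l = b / 2 ^ l then u (x, y) ^ 2 else 0

theorem cut_nonneg (u : ℤ × ℤ → ℝ) (l : ℕ) (a b x y : ℤ) : 0 ≤ cut u l a b x y := by
  unfold cut; split_ifs
  · exact sq_nonneg _
  · exact le_rfl

theorem cut_supp (u : ℤ × ℤ → ℝ) (l : ℕ) (a b x y : ℤ) (h : cut u l a b x y ≠ 0) :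
    x / 2 ^ l = a / 2 ^ l ∧ y / 2 ^ l = b / 2 ^ l := by
  unfold cut at h
  by_contra h'
  rw [if_neg h'] at h
  exact h rfl

theorem div_of_le {k l : ℕ} (hkl : k ≤ l) {x y : ℤ} (h : x / 2 ^ k = y / 2 ^ k) :
    x / 2 ^ l = y / 2 ^ l := by
  have e : (2 : ℤ) ^ l = 2 ^ k * 2 ^ (l - k) := by rw [← pow_add]; congr 1; omega
  have hp : (0 : ℤ) ≤ 2 ^ k := by positivity
  rw [e, ← Int.ediv_ediv_of_nonneg hp, ← Int.ediv_ediv_of_nonneg hp, h]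

/-- the average over a subsquare is a square sum of the cut function -/
theorem A2_eq (u : ℤ × ℤ → ℝ) {k l : ℕ} (hkl : k ≤ l) {a b s t : ℤ}
    (hs : s / 2 ^ l = a / 2 ^ l) (ht : t / 2 ^ l = b / 2 ^ l) :
    A2 k u s t = Sq (cut u l a b) k (s / 2 ^ k) (t / 2 ^ k) / 4 ^ k := by
  have h1 : Sq (cut u l a b) k (s / 2 ^ k) (t / 2 ^ k) =
      ∑ w ∈ iv k s ×ˢ iv k t, u w ^ 2 := by
    rw [sum_product]
    unfold Sq
    have e1 : ∀ x, ic k (x / 2 ^ k) = iv k x := fun x => by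
      ext y; rw [mem_ic, mem_iv]
    rw [e1, e1]
    refine sum_congr rfl fun x hx => sum_congr rfl fun y hy => ?_
    unfold cut
    rw [if_pos]
    rw [mem_iv] at hx hy
    exact ⟨(div_of_le hkl hx).trans hs, (div_of_le hkl hy).trans ht⟩
  unfold A2 avg
  rw [h1, card_product, card_iv, card_iv]
  have : ((2 ^ k * 2 ^ k : ℕ) : ℝ) = 4 ^ k := by
    push_cast; rw [← mul_pow]; norm_num
  rw [this, inv_mul_eq_div]

/-- the point function which dominates the norms on the neighbouring squares -/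
def mp (e : ℝ) (u : ℤ × ℤ → ℝ) (X : ℝ) (l : ℕ) (a b : ℤ) (w : ℤ × ℤ) : ℝ :=
  (MF (cut u l a b) l w) ^ ((1 - e) / 2) * X ^ e

theorem mp_nonneg (e : ℝ) (u : ℤ × ℤ → ℝ) {X : ℝ} (hX : 0 ≤ X) (l : ℕ) (a b : ℤ) (w : ℤ × ℤ) :
    0 ≤ mp e u X l a b w :=
  mul_nonneg (Real.rpow_nonneg (MF_nonneg _ _ _) _) (Real.rpow_nonneg hX _)

theorem A2_le_MF (u : ℤ × ℤ → ℝ) {k l : ℕ} (hkl : k ≤ l) {a b s t : ℤ}
    (hs : s / 2 ^ l = a / 2 ^ l) (ht : t / 2 ^ l = b / 2 ^ l) {w : ℤ × ℤ}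
    (h1 : s / 2 ^ k - 1 ≤ w.1 / 2 ^ k ∧ w.1 / 2 ^ k ≤ s / 2 ^ k + 1)
    (h2 : t / 2 ^ k - 1 ≤ w.2 / 2 ^ k ∧ w.2 / 2 ^ k ≤ t / 2 ^ k + 1) :
    A2 k u s t ≤ MF (cut u l a b) l w := by
  rw [A2_eq u hkl hs ht]
  have h := le_MF (fun x y => cut_nonneg u l a b x y) hkl (d1 := s / 2 ^ k - w.1 / 2 ^ k)
    (d2 := t / 2 ^ k - w.2 / 2 ^ k) ⟨by linarith [h1.2], by linarith [h1.1]⟩
    ⟨by linarith [h2.2], by linarith [h2.1]⟩ w
  rwa [add_sub_cancel, add_sub_cancel] at h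

/-- the `L²` bound of the point function -/
theorem sum_mp_sq {e : ℝ} (h0 : 0 < e) (h1 : e ≤ 1) (u : ℤ × ℤ → ℝ) {X : ℝ} (l : ℕ)
    (a b : ℤ) (hXz : A2 l u a b = 0 → X = 0) :
    ∑ x ∈ bl l (a / 2 ^ l), ∑ y ∈ bl l (b / 2 ^ l), mp e u X l a b (x, y) ^ 2 ≤
      45 / e * 4 ^ l * ((A2 l u a b) ^ ((1 - e) / 2) * X ^ e) ^ 2 := by
  rw [← sum_product' (bl l (a / 2 ^ l)) (bl l (b / 2 ^ l)) (fun x y => mp e u X l a b (x, y) ^ 2)]
  have hA0 : 0 ≤ A2 l u a b := A2_nonneg _ _ _ _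
  rcases hA0.eq_or_lt with hA | hA
  · have hX0 := hXz hA.symm
    refine le_trans (le_of_eq (sum_eq_zero fun w _ => ?_)) (by positivity)
    unfold mp
    rw [hX0, Real.zero_rpow h0.ne', mul_zero]; norm_num
  · have hsq : ∀ M : ℝ, 0 ≤ M → (M ^ ((1 - e) / 2) * X ^ e) ^ 2 = M ^ (1 - e) * (X ^ e) ^ 2 := by
      intro M hM
      rw [mul_pow]
      congr 1
      rw [← Real.rpow_natCast, ← Real.rpow_mul hM]; congr 1; push_cast; ring
    have hS : Sq (cut u l a b) l (a / 2 ^ l) (b / 2 ^ l) = 4 ^ l * A2 l u a b := by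
      rw [A2_eq u le_rfl rfl rfl]
      field_simp
    have hk := kolmogorov (bl l (a / 2 ^ l) ×ˢ bl l (b / 2 ^ l))
      (fun w => MF (cut u l a b) l w) (fun w _ => MF_nonneg _ _ _)
      (B := 9 * Sq (cut u l a b) l (a / 2 ^ l) (b / 2 ^ l))
      (mul_nonneg (by norm_num) (Sq_nonneg (fun x y => cut_nonneg u l a b x y) _ _ _))
      (fun lam hl => weak (fun x y => cut_nonneg u l a b x y)
        (fun x y h => cut_supp u l a b x y h) hl _) h0 h1 hA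
    have hcard : ((bl l (a / 2 ^ l) ×ˢ bl l (b / 2 ^ l)).card : ℝ) = 9 * 4 ^ l := by
      rw [card_product, card_bl, card_bl]
      push_cast
      rw [show (4 : ℝ) = 2 * 2 by norm_num, mul_pow]; ring
    rw [hcard, hS] at hk
    have hr : A2 l u a b * A2 l u a b ^ (-e) = A2 l u a b ^ (1 - e) := by
      rw [show 1 - e = 1 + -e by ring, Real.rpow_add hA, Real.rpow_one]
    have hk2 : ∑ w ∈ bl l (a / 2 ^ l) ×ˢ bl l (b / 2 ^ l), MF (cut u l a b) l w ^ (1 - e) ≤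
        45 / e * 4 ^ l * A2 l u a b ^ (1 - e) := by
      refine hk.trans ?_
      have hre : 4 / e * (9 * (4 ^ l * A2 l u a b)) * A2 l u a b ^ (-e) =
          36 / e * 4 ^ l * A2 l u a b ^ (1 - e) := by rw [← hr]; ring
      rw [hre]
      have h9 : (9 : ℝ) ≤ 9 / e := by rw [le_div_iff₀ h0]; linarith
      have h10 : 0 ≤ 4 ^ l * A2 l u a b ^ (1 - e) := by positivity
      calc A2 l u a b ^ (1 - e) * (9 * 4 ^ l) + 36 / e * 4 ^ l * A2 l u a b ^ (1 - e)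
          = (9 + 36 / e) * (4 ^ l * A2 l u a b ^ (1 - e)) := by ring
        _ ≤ (9 / e + 36 / e) * (4 ^ l * A2 l u a b ^ (1 - e)) := by gcongr
        _ = _ := by ring
    rw [hsq _ hA0]
    have hsum : ∑ w ∈ bl l (a / 2 ^ l) ×ˢ bl l (b / 2 ^ l), mp e u X l a b (w.1, w.2) ^ 2 =
        (∑ w ∈ bl l (a / 2 ^ l) ×ˢ bl l (b / 2 ^ l), MF (cut u l a b) l w ^ (1 - e)) *
          (X ^ e) ^ 2 := by
      rw [sum_mul]
      refine sum_congr rfl fun w _ => ?_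
      unfold mp
      rw [hsq _ (MF_nonneg _ _ _)]
    rw [hsum]
    calc _ ≤ (45 / e * 4 ^ l * A2 l u a b ^ (1 - e)) * (X ^ e) ^ 2 :=
          mul_le_mul_of_nonneg_right hk2 (by positivity)
      _ = _ := by ring

theorem mx_zero {Q : Finset Pt} {f : Pt → ℝ} (h : avg Q (fun y => f y ^ 2) = 0) : mx Q f = 0 := by
  rcases Q.eq_empty_or_nonempty with rfl | hQ
  · unfold mx; simp
  · have h1 := Vale.Agent.P141.PL.H315.sq_mx_le_avg hQ f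
    rw [h] at h1
    have hc : (0 : ℝ) < (Q.card : ℝ)⁻¹ := by
      have : (0 : ℝ) < Q.card := by exact_mod_cast hQ.card_pos
      positivity
    have h2 : mx Q f ^ 2 ≤ 0 := by
      by_contra h3
      have := mul_pos hc (not_le.1 h3)
      linarith
    exact pow_eq_zero_iff (n := 2) (by norm_num) |>.1 (le_antisymm h2 (sq_nonneg _))

/-- the point function for the three faces -/
def MM (δ e : ℝ) (l : ℕ) (q : Pt) (u : Tri) (y : Pt) : ℝ :=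
  δ * (mp e u.1 (mx (cube3 l q) (e12 u.1)) l q.1 q.2.1 (y.1, y.2.1) *
    mp e u.2.1 (mx (cube3 l q) (e13 u.2.1)) l q.1 q.2.2 (y.1, y.2.2) *
    mp e u.2.2 (mx (cube3 l q) (e23 u.2.2)) l q.2.1 q.2.2 (y.2.1, y.2.2))

theorem MM_nonneg {δ : ℝ} (hδ : 0 ≤ δ) (e : ℝ) (l : ℕ) (q : Pt) (u : Tri) (y : Pt) :
    0 ≤ MM δ e l q u y := by
  unfold MM
  have h1 := mp_nonneg e u.1 (mx_nonneg (cube3 l q) (e12 u.1)) l q.1 q.2.1 (y.1, y.2.1)
  have h2 := mp_nonneg e u.2.1 (mx_nonneg (cube3 l q) (e13 u.2.1)) l q.1 q.2.2 (y.1, y.2.2)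
  have h3 := mp_nonneg e u.2.2 (mx_nonneg (cube3 l q) (e23 u.2.2)) l q.2.1 q.2.2 (y.2.1, y.2.2)
  positivity

theorem cube3_sub {k l : ℕ} (hkl : k ≤ l) {q z : Pt} (hz : z ∈ cube3 l q) :
    cube3 k z ⊆ cube3 l q := by
  intro y hy
  have h1 : y ∈ gz.cube l z := gz.sub_le hkl z hy
  have h2 : gz.cube l z = gz.cube l q := gz.eq_of_mem l q z hz
  rw [h2] at h1
  exact h1

/-- the density of the weight on the neighbouring cubes -/
theorem wt_le_MM {δ e : ℝ} (hδ : 0 ≤ δ) (h0 : 0 ≤ e) (h1 : e ≤ 1) {k l : ℕ} (hkl : k ≤ l)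
    {q z y : Pt} (hz : z ∈ cube3 l q) (hy : y ∈ bl3 k z) (u : Tri) :
    wt δ e (cube3 k z) u ≤ 8 ^ k * MM δ e l q u y := by
  have hz' := mem_cube3.1 hz
  rw [mem_iv, mem_iv, mem_iv] at hz'
  obtain ⟨z1, z2, z3⟩ := hz'
  obtain ⟨y1, y2, y3⟩ := mem_bl3.1 hy
  have hsub := cube3_sub hkl hz
  have he : 0 ≤ (1 - e) / 2 := by linarith
  have n12 : Nm e (cube3 k z) (e12 u.1) ≤
      mp e u.1 (mx (cube3 l q) (e12 u.1)) l q.1 q.2.1 (y.1, y.2.1) := by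
    unfold Nm mp
    rw [avg_e12]
    exact mul_le_mul (Real.rpow_le_rpow (A2_nonneg _ _ _ _) (A2_le_MF _ hkl z1 z2 y1 y2) he)
      (Real.rpow_le_rpow (mx_nonneg _ _) (mx_mono hsub _) h0)
      (Real.rpow_nonneg (mx_nonneg _ _) _) (Real.rpow_nonneg (MF_nonneg _ _ _) _)
  have n13 : Nm e (cube3 k z) (e13 u.2.1) ≤
      mp e u.2.1 (mx (cube3 l q) (e13 u.2.1)) l q.1 q.2.2 (y.1, y.2.2) := by
    unfold Nm mp
    rw [avg_e13]
    exact mul_le_mul (Real.rpow_le_rpow (A2_nonneg _ _ _ _) (A2_le_MF _ hkl z1 z3 y1 y3) he)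
      (Real.rpow_le_rpow (mx_nonneg _ _) (mx_mono hsub _) h0)
      (Real.rpow_nonneg (mx_nonneg _ _) _) (Real.rpow_nonneg (MF_nonneg _ _ _) _)
  have n23 : Nm e (cube3 k z) (e23 u.2.2) ≤
      mp e u.2.2 (mx (cube3 l q) (e23 u.2.2)) l q.2.1 q.2.2 (y.2.1, y.2.2) := by
    unfold Nm mp
    rw [avg_e23]
    exact mul_le_mul (Real.rpow_le_rpow (A2_nonneg _ _ _ _) (A2_le_MF _ hkl z2 z3 y2 y3) he)
      (Real.rpow_le_rpow (mx_nonneg _ _) (mx_mono hsub _) h0)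
      (Real.rpow_nonneg (mx_nonneg _ _) _) (Real.rpow_nonneg (MF_nonneg _ _ _) _)
  unfold wt MM
  rw [card_cube3]
  push_cast
  have p12 := Nm_nonneg e (cube3 k z) (e12 u.1)
  have p13 := Nm_nonneg e (cube3 k z) (e13 u.2.1)
  have p23 := Nm_nonneg e (cube3 k z) (e23 u.2.2)
  have hprod := mul_le_mul (mul_le_mul n12 n13 p13 (p12.trans n12)) n23 p23
    (mul_nonneg (p12.trans n12) (p13.trans n13))
  calc _ = (8 : ℝ) ^ k * (δ * (Nm e (cube3 k z) (e12 u.1) * Nm e (cube3 k z) (e13 u.2.1) *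
        Nm e (cube3 k z) (e23 u.2.2))) := by ring
    _ ≤ _ := mul_le_mul_of_nonneg_left (mul_le_mul_of_nonneg_left hprod hδ) (by positivity)

/-- the constant of the gluing -/
def Cg (e : ℝ) : ℝ := 432 * √(45 / e) ^ 3

theorem Cg_nonneg (e : ℝ) : 0 ≤ Cg e := by unfold Cg; positivity

theorem sum_MM {δ e : ℝ} (hδ : 0 ≤ δ) (h0 : 0 < e) (h1 : e ≤ 1) (l : ℕ) (q : Pt) (u : Tri) :
    432 * ∑ y ∈ bl3 l q, MM δ e l q u y ≤ Cg e * wt δ e (cube3 l q) u := by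
  set X12 := mx (cube3 l q) (e12 u.1)
  set X13 := mx (cube3 l q) (e13 u.2.1)
  set X23 := mx (cube3 l q) (e23 u.2.2)
  set N12 := Nm e (cube3 l q) (e12 u.1) with hN12
  set N13 := Nm e (cube3 l q) (e13 u.2.1) with hN13
  set N23 := Nm e (cube3 l q) (e23 u.2.2) with hN23
  have b12 : ∑ x ∈ bl l (q.1 / 2 ^ l), ∑ y ∈ bl l (q.2.1 / 2 ^ l),
      mp e u.1 X12 l q.1 q.2.1 (x, y) ^ 2 ≤ 45 / e * 4 ^ l * N12 ^ 2 := by
    have := sum_mp_sq h0 h1 u.1 (X := X12) l q.1 q.2.1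
      (fun h => mx_zero (by rw [avg_e12]; exact h))
    rw [← avg_e12] at this
    exact this
  have b13 : ∑ x ∈ bl l (q.1 / 2 ^ l), ∑ y ∈ bl l (q.2.2 / 2 ^ l),
      mp e u.2.1 X13 l q.1 q.2.2 (x, y) ^ 2 ≤ 45 / e * 4 ^ l * N13 ^ 2 := by
    have := sum_mp_sq h0 h1 u.2.1 (X := X13) l q.1 q.2.2
      (fun h => mx_zero (by rw [avg_e13]; exact h))
    rw [← avg_e13] at this
    exact this
  have b23 : ∑ x ∈ bl l (q.2.1 / 2 ^ l), ∑ y ∈ bl l (q.2.2 / 2 ^ l),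
      mp e u.2.2 X23 l q.2.1 q.2.2 (x, y) ^ 2 ≤ 45 / e * 4 ^ l * N23 ^ 2 := by
    have := sum_mp_sq h0 h1 u.2.2 (X := X23) l q.2.1 q.2.2
      (fun h => mx_zero (by rw [avg_e23]; exact h))
    rw [← avg_e23] at this
    exact this
  have n12 : 0 ≤ N12 := Nm_nonneg _ _ _
  have n13 : 0 ≤ N13 := Nm_nonneg _ _ _
  have n23 : 0 ≤ N23 := Nm_nonneg _ _ _
  have hlw := loomis_whitney (bl l (q.1 / 2 ^ l)) (bl l (q.2.1 / 2 ^ l)) (bl l (q.2.2 / 2 ^ l))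
    (fun x y => mp e u.1 X12 l q.1 q.2.1 (x, y)) (fun x z => mp e u.2.1 X13 l q.1 q.2.2 (x, z))
    (fun y z => mp e u.2.2 X23 l q.2.1 q.2.2 (y, z))
  set S := ∑ x ∈ bl l (q.1 / 2 ^ l), ∑ y ∈ bl l (q.2.1 / 2 ^ l), ∑ z ∈ bl l (q.2.2 / 2 ^ l),
    mp e u.1 X12 l q.1 q.2.1 (x, y) * mp e u.2.1 X13 l q.1 q.2.2 (x, z) *
      mp e u.2.2 X23 l q.2.1 q.2.2 (y, z) with hSdef
  have hS : ∑ y ∈ bl3 l q, MM δ e l q u y = δ * S := by
    unfold bl3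
    rw [hSdef, mul_sum, sum_product]
    refine sum_congr rfl fun x _ => ?_
    rw [mul_sum, sum_product]
    refine sum_congr rfl fun y _ => ?_
    rw [mul_sum]
    exact sum_congr rfl fun z _ => rfl
  have h45 : 0 ≤ 45 / e := by positivity
  have hS2 : S ^ 2 ≤ (√(45 / e) ^ 3 * (8 ^ l * (N12 * N13 * N23))) ^ 2 := by
    refine hlw.trans ?_
    have hb : (∑ x ∈ bl l (q.1 / 2 ^ l), ∑ y ∈ bl l (q.2.1 / 2 ^ l),
          mp e u.1 X12 l q.1 q.2.1 (x, y) ^ 2) *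
        (∑ x ∈ bl l (q.1 / 2 ^ l), ∑ y ∈ bl l (q.2.2 / 2 ^ l),
          mp e u.2.1 X13 l q.1 q.2.2 (x, y) ^ 2) *
        (∑ x ∈ bl l (q.2.1 / 2 ^ l), ∑ y ∈ bl l (q.2.2 / 2 ^ l),
          mp e u.2.2 X23 l q.2.1 q.2.2 (x, y) ^ 2) ≤
        (45 / e * 4 ^ l * N12 ^ 2) * (45 / e * 4 ^ l * N13 ^ 2) * (45 / e * 4 ^ l * N23 ^ 2) := by
      have s13 : 0 ≤ ∑ x ∈ bl l (q.1 / 2 ^ l), ∑ y ∈ bl l (q.2.2 / 2 ^ l),
          mp e u.2.1 X13 l q.1 q.2.2 (x, y) ^ 2 :=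
        sum_nonneg fun _ _ => sum_nonneg fun _ _ => sq_nonneg _
      have s23 : 0 ≤ ∑ x ∈ bl l (q.2.1 / 2 ^ l), ∑ y ∈ bl l (q.2.2 / 2 ^ l),
          mp e u.2.2 X23 l q.2.1 q.2.2 (x, y) ^ 2 :=
        sum_nonneg fun _ _ => sum_nonneg fun _ _ => sq_nonneg _
      exact mul_le_mul (mul_le_mul b12 b13 s13 (by positivity)) b23 s23 (by positivity)
    refine hb.trans (le_of_eq ?_)
    have h6 : (√(45 / e) ^ 3 * (8 ^ l * (N12 * N13 * N23))) ^ 2 =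
        (√(45 / e) ^ 2) ^ 3 * ((8 ^ l) ^ 2 * (N12 * N13 * N23) ^ 2) := by ring
    have h7 : ((8 : ℝ) ^ l) ^ 2 = 4 ^ l * 4 ^ l * 4 ^ l := by
      rw [← mul_pow, ← mul_pow, ← pow_mul, mul_comm l 2, pow_mul]; norm_num
    rw [h6, Real.sq_sqrt h45, h7]
    ring
  have hS3 : S ≤ √(45 / e) ^ 3 * (8 ^ l * (N12 * N13 * N23)) :=
    le_of_sq_le_sq' hS2 (by positivity)
  rw [hS]
  unfold Cg wt
  rw [card_cube3]
  push_cast
  calc 432 * (δ * S) ≤ 432 * (δ * (√(45 / e) ^ 3 * (8 ^ l * (N12 * N13 * N23)))) := by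
        gcongr
    _ = _ := by ring
where
  le_of_sq_le_sq' {a b : ℝ} (h : a ^ 2 ≤ b ^ 2) (hb : 0 ≤ b) : a ≤ b := abs_le_of_sq_le_sq' h hb |>.2

open Classical in
/-- **MIXED GLUE**: uniformity of a lift on cells of different scales `≤ l` gives uniformity on
the cubes of scale `l`, with a constant which depends on `e` only. -/
theorem glue {c0 : ℕ} {σ : ℤ} {c : Pt} (hc : csz c ≤ 2 ^ c0) {δ e : ℝ} (hδ : 0 ≤ δ) (h0 : 0 < e)
    (h1 : e ≤ 1) {l : ℕ} {m : ℤ → ℕ} {A : ℤ → Prop}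
    (hm : ∀ x y, A x → ixs c0 σ (m x) y = ixs c0 σ (m x) x → A y ∧ m y = m x)
    (hml : ∀ x, A x → m x ≤ l) {G : ℤ → ℝ} (q : Pt) (u : Tri)
    (h : ∀ x, A x → ∀ z ∈ cube3 l q,
      |dot ((gr c0 σ).cube (m x) x) G (a1 c (m x) (z, u))| ≤ wt δ e (cube3 (m x) z) u) :
    |∑ y ∈ cube3 l q, (if A (el c y) then G (el c y) else 0) * atm u y| ≤
      Cg e * wt δ e (cube3 l q) u := by
  have key := glue_abs hc (l := l) (q := q) hm hml (φ := fun y => G (el c y) * atm u y)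
    (w := fun k z => wt δ e (cube3 k z) u) (fun k z => wt_nonneg hδ _ _ _)
    (fun x hx z hz => by
      have h2 := h x hx z hz
      rw [dot_a1] at h2
      refine le_trans (le_of_eq ?_) h2
      congr 1
      refine sum_congr rfl fun y _ => ?_
      by_cases hy : ixs c0 σ (m x) (el c y) = ixs c0 σ (m x) x
      · rw [if_pos hy, if_pos (mem_gs.2 hy)]
      · rw [if_neg hy, if_neg (fun h' => hy (mem_gs.1 h'))])
    (M := MM δ e l q u) (fun y => MM_nonneg hδ e l q u y)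
    (fun k hk z hz y hy => wt_le_MM hδ h0.le h1 hk hz hy u)
  refine le_trans (le_of_eq ?_) (key.trans (sum_MM hδ h0 h1 l q u))
  congr 1
  refine sum_congr rfl fun y _ => ?_
  by_cases hy : A (el c y)
  · rw [if_pos hy, if_pos hy]
  · rw [if_neg hy, if_neg hy, zero_mul]

open Classical in
/-- **MIXED GLUE on a cell**: the same for the tests of `sys1` on the cell of `x` of scale `l`. -/
theorem glue_dot {c0 : ℕ} {σ : ℤ} {c : Pt} (hc : csz c ≤ 2 ^ c0) {δ e : ℝ} (hδ : 0 ≤ δ)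
    (h0 : 0 < e) (h1 : e ≤ 1) {l : ℕ} {x0 : ℤ} {m : ℤ → ℕ} {A : ℤ → Prop}
    (hm : ∀ x ∈ (gr c0 σ).cube l x0, ∀ y, A x → ixs c0 σ (m x) y = ixs c0 σ (m x) x →
      A y ∧ m y = m x)
    (hml : ∀ x ∈ (gr c0 σ).cube l x0, A x → m x ≤ l) {G : ℤ → ℝ} (q : Pt) (u : Tri)
    (h : ∀ x ∈ (gr c0 σ).cube l x0, A x → ∀ z ∈ cube3 l q,
      |dot ((gr c0 σ).cube (m x) x) G (a1 c (m x) (z, u))| ≤ wt δ e (cube3 (m x) z) u) :
    |dot ((gr c0 σ).cube l x0) (fun y => if A y then G y else 0) (a1 c l (q, u))| ≤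
      Cg e * wt δ e (cube3 l q) u := by
  have key := glue hc hδ h0 h1 (l := l) (m := m)
    (A := fun x => x ∈ (gr c0 σ).cube l x0 ∧ A x)
    (fun x y hx hy => by
      obtain ⟨h2, h3⟩ := hm x hx.1 y hx.2 hy
      have hl := hml x hx.1 hx.2
      have h4 : y ∈ (gr c0 σ).cube l x := (gr c0 σ).sub_le hl x (mem_gs.2 hy)
      have h5 : (gr c0 σ).cube l x = (gr c0 σ).cube l x0 := (gr c0 σ).eq_of_mem l x0 x hx.1
      exact ⟨⟨h5 ▸ h4, h2⟩, h3⟩)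
    (fun x hx => hml x hx.1 hx.2) (G := G) q u (fun x hx => h x hx.1 hx.2)
  rw [dot_a1]
  refine le_trans (le_of_eq ?_) key
  congr 1
  refine sum_congr rfl fun y _ => ?_
  by_cases hy : el c y ∈ (gr c0 σ).cube l x0
  · by_cases hA : A (el c y)
    · rw [if_pos hy, if_pos hA, if_pos ⟨hy, hA⟩]
    · rw [if_pos hy, if_neg hA, if_neg (fun h' => hA h'.2)]
  · rw [if_neg hy, if_neg (fun h' => hy h'.1), zero_mul]

end

end Vale.Agent.P141.H782
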