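import Mathlib

/-!
# P141: a two-dimensional dyadic maximal function with neighbouring squares

Weak type `(1,1)` (constant `9`) and Kolmogorov's inequality.  Used for the mixed-scale gluing of
uniformity (`Glue.lean`).
-/

namespace Vale.Agent.P141.H782

open Finset

noncomputable section

/-- the dyadic interval of scale `k` and index `a` -/
def ic (k : ℕ) (a : ℤ) : Finset ℤ := Ico (2 ^ k * a) (2 ^ k * a + 2 ^ k)

theorem mem_ic {k : ℕ} {a x : ℤ} : x ∈ ic k a ↔ x / 2 ^ k = a := by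
  unfold ic
  have h2 : (0 : ℤ) < 2 ^ k := by positivity
  rw [mem_Ico]
  constructor
  · rintro ⟨h, h'⟩
    refine le_antisymm ?_ ?_
    · exact Int.lt_add_one_iff.mp (Int.ediv_lt_of_lt_mul h2 (by linarith))
    · exact Int.le_ediv_of_mul_le h2 (by linarith)
  · rintro rfl
    have h3 := Int.mul_ediv_add_emod x (2 ^ k)
    have h4 := Int.emod_nonneg x h2.ne'
    have h5 := Int.emod_lt_of_pos x h2
    constructor <;> linarith

theorem card_ic (k : ℕ) (a : ℤ) : (ic k a).card = 2 ^ k := by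
  unfold ic
  rw [Int.card_Ico]
  have : (2 ^ k * a + 2 ^ k - 2 ^ k * a : ℤ) = ((2 ^ k : ℕ) : ℤ) := by push_cast; ring
  rw [this, Int.toNat_natCast]

theorem ic_succ (k : ℕ) (a : ℤ) : ic (k + 1) a = ic k (2 * a) ∪ ic k (2 * a + 1) := by
  unfold ic
  have h2 : (0 : ℤ) < 2 ^ k := by positivity
  rw [show (2 : ℤ) ^ k * (2 * a + 1) = 2 ^ k * (2 * a) + 2 ^ k by ring,
    Finset.Ico_union_Ico_eq_Ico (by linarith) (by linarith)]
  congr 1 <;> (rw [pow_succ]; ring)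

theorem disj_ic (k : ℕ) {a b : ℤ} (h : a ≠ b) : Disjoint (ic k a) (ic k b) := by
  rw [Finset.disjoint_left]
  intro x hx hx'
  exact h ((mem_ic.1 hx).symm.trans (mem_ic.1 hx'))

theorem sum_ic_succ (k : ℕ) (a : ℤ) (f : ℤ → ℝ) :
    ∑ x ∈ ic (k + 1) a, f x = ∑ x ∈ ic k (2 * a), f x + ∑ x ∈ ic k (2 * a + 1), f x := by
  rw [ic_succ, Finset.sum_union (disj_ic k (by omega))]

/-- sum over a square -/
def Sq (F : ℤ → ℤ → ℝ) (k : ℕ) (a b : ℤ) : ℝ := ∑ x ∈ ic k a, ∑ y ∈ ic k b, F x y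

theorem Sq_nonneg {F : ℤ → ℤ → ℝ} (hF : ∀ x y, 0 ≤ F x y) (k : ℕ) (a b : ℤ) : 0 ≤ Sq F k a b :=
  sum_nonneg fun _ _ => sum_nonneg fun _ _ => hF _ _

theorem Sq_succ (F : ℤ → ℤ → ℝ) (k : ℕ) (a b : ℤ) :
    Sq F (k + 1) a b = (Sq F k (2 * a) (2 * b) + Sq F k (2 * a) (2 * b + 1)) +
      (Sq F k (2 * a + 1) (2 * b) + Sq F k (2 * a + 1) (2 * b + 1)) := by
  unfold Sq
  rw [sum_ic_succ]
  simp only [sum_ic_succ, sum_add_distrib]

/-- the block of three intervals -/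
def bl (k : ℕ) (a : ℤ) : Finset ℤ := Ico (2 ^ k * (a - 1)) (2 ^ k * (a + 2))

theorem mem_bl {k : ℕ} {a x : ℤ} : x ∈ bl k a ↔ a - 1 ≤ x / 2 ^ k ∧ x / 2 ^ k ≤ a + 1 := by
  unfold bl
  have h2 : (0 : ℤ) < 2 ^ k := by positivity
  rw [mem_Ico, Int.le_ediv_iff_mul_le h2, mul_comm (a - 1)]
  refine and_congr Iff.rfl ?_
  rw [← Int.lt_add_one_iff, Int.ediv_lt_iff_lt_mul h2]
  constructor <;> intro h <;> linarith

theorem card_bl (k : ℕ) (a : ℤ) : (bl k a).card = 3 * 2 ^ k := by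
  unfold bl
  rw [Int.card_Ico]
  have : (2 ^ k * (a + 2) - 2 ^ k * (a - 1) : ℤ) = ((3 * 2 ^ k : ℕ) : ℤ) := by push_cast; ring
  rw [this, Int.toNat_natCast]

theorem near_div {z d m : ℤ} (hm : 0 < m) (hd : -1 ≤ d) (hd' : d ≤ 1) :
    (z + d) / m - 1 ≤ z / m ∧ z / m ≤ (z + d) / m + 1 := by
  constructor
  · have h1 : (z + d) / m ≤ (z + 1 * m) / m := Int.ediv_le_ediv hm (by linarith)
    rw [Int.add_mul_ediv_right _ _ hm.ne'] at h1
    linarith
  · have h1 : z / m ≤ (z + d + 1 * m) / m := Int.ediv_le_ediv hm (by linarith)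
    rw [Int.add_mul_ediv_right _ _ hm.ne'] at h1
    linarith

/-- `w` is near a square inside the square `(k, a, b)` with average `> lam` -/
def Near (F : ℤ → ℤ → ℝ) (lam : ℝ) (k : ℕ) (a b : ℤ) (w : ℤ × ℤ) : Prop :=
  ∃ j ≤ k, ∃ d1 d2 : ℤ, (-1 ≤ d1 ∧ d1 ≤ 1) ∧ (-1 ≤ d2 ∧ d2 ≤ 1) ∧
    (w.1 / 2 ^ j + d1) / 2 ^ (k - j) = a ∧ (w.2 / 2 ^ j + d2) / 2 ^ (k - j) = b ∧
      lam * 4 ^ j < Sq F j (w.1 / 2 ^ j + d1) (w.2 / 2 ^ j + d2)

open Classical in
/-- the set of these points -/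
def Bd (F : ℤ → ℤ → ℝ) (lam : ℝ) (k : ℕ) (a b : ℤ) : Finset (ℤ × ℤ) :=
  (bl k a ×ˢ bl k b).filter (Near F lam k a b)

theorem mem_Bd {F : ℤ → ℤ → ℝ} {lam : ℝ} {k : ℕ} {a b : ℤ} {w : ℤ × ℤ} :
    w ∈ Bd F lam k a b ↔ Near F lam k a b w := by
  classical
  unfold Bd
  rw [mem_filter, and_iff_right_iff_imp]
  rintro ⟨j, hj, d1, d2, h1, h2, h3, h4, _⟩
  rw [mem_product, mem_bl, mem_bl]
  have hp : (0 : ℤ) < 2 ^ (k - j) := by positivity
  have e : (2 : ℤ) ^ k = 2 ^ j * 2 ^ (k - j) := by rw [← pow_add]; congr 1; omega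
  have e1 : ∀ x : ℤ, x / 2 ^ k = x / 2 ^ j / 2 ^ (k - j) := fun x => by
    rw [e, Int.ediv_ediv_of_nonneg (by positivity)]
  rw [e1, e1, ← h3, ← h4]
  exact ⟨near_div hp h1.1 h1.2, near_div hp h2.1 h2.2⟩

theorem card_Bd (F : ℤ → ℤ → ℝ) (hF : ∀ x y, 0 ≤ F x y) {lam : ℝ} (hl : 0 < lam) (k : ℕ) :
    ∀ a b : ℤ, lam * (Bd F lam k a b).card ≤ 9 * Sq F k a b := by
  induction k with
  | zero =>
    intro a b
    by_cases h : lam < Sq F 0 a b
    · have hc : ((Bd F lam 0 a b).card : ℝ) ≤ 9 := by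
        have : (Bd F lam 0 a b).card ≤ (bl 0 a ×ˢ bl 0 b).card := by
          classical exact card_filter_le _ _
        rw [card_product, card_bl, card_bl] at this
        exact_mod_cast this
      calc lam * (Bd F lam 0 a b).card ≤ lam * 9 := by gcongr
        _ ≤ _ := by linarith
    · have : Bd F lam 0 a b = ∅ := by
        rw [Finset.eq_empty_iff_forall_notMem]
        intro w hw
        obtain ⟨j, hj, d1, d2, _, _, h3, h4, h5⟩ := mem_Bd.1 hw
        obtain rfl : j = 0 := by omega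
        simp only [pow_zero, Int.ediv_one, Nat.sub_self] at h3 h4 h5
        rw [h3, h4, mul_one] at h5
        exact h h5
      rw [this, card_empty, Nat.cast_zero, mul_zero]
      have := Sq_nonneg hF 0 a b
      linarith
  | succ k ih =>
    intro a b
    by_cases h : lam * 4 ^ (k + 1) < Sq F (k + 1) a b
    · have hc : ((Bd F lam (k + 1) a b).card : ℝ) ≤ 9 * 4 ^ (k + 1) := by
        have : (Bd F lam (k + 1) a b).card ≤ (bl (k + 1) a ×ˢ bl (k + 1) b).card := by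
          classical exact card_filter_le _ _
        rw [card_product, card_bl, card_bl] at this
        have h2 : 3 * 2 ^ (k + 1) * (3 * 2 ^ (k + 1)) = 9 * 4 ^ (k + 1) := by
          rw [show (4 : ℕ) = 2 * 2 by norm_num, mul_pow]; ring
        rw [h2] at this
        exact_mod_cast this
      calc lam * (Bd F lam (k + 1) a b).card ≤ lam * (9 * 4 ^ (k + 1)) := by gcongr
        _ ≤ _ := by linarith
    · classical
      have hsub : Bd F lam (k + 1) a b ⊆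
          (Bd F lam k (2 * a) (2 * b) ∪ Bd F lam k (2 * a) (2 * b + 1)) ∪
            (Bd F lam k (2 * a + 1) (2 * b) ∪ Bd F lam k (2 * a + 1) (2 * b + 1)) := by
        intro w hw
        obtain ⟨j, hj, d1, d2, h1, h2, h3, h4, h5⟩ := mem_Bd.1 hw
        have hjk : j ≤ k := by
          by_contra hjk
          obtain rfl : j = k + 1 := by omega
          simp only [Nat.sub_self, pow_zero, Int.ediv_one] at h3 h4
          rw [h3, h4] at h5
          exact h h5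
        have e : (2 : ℤ) ^ (k + 1 - j) = 2 ^ (k - j) * 2 := by
          rw [← pow_succ]; congr 1; omega
        have hp : (0 : ℤ) ≤ 2 ^ (k - j) := by positivity
        rw [e, ← Int.ediv_ediv_of_nonneg hp] at h3 h4
        have hN : Near F lam k ((w.1 / 2 ^ j + d1) / 2 ^ (k - j))
            ((w.2 / 2 ^ j + d2) / 2 ^ (k - j)) w :=
          ⟨j, hjk, d1, d2, h1, h2, rfl, rfl, h5⟩
        have ha : (w.1 / 2 ^ j + d1) / 2 ^ (k - j) = 2 * a ∨
            (w.1 / 2 ^ j + d1) / 2 ^ (k - j) = 2 * a + 1 := by omega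
        have hb : (w.2 / 2 ^ j + d2) / 2 ^ (k - j) = 2 * b ∨
            (w.2 / 2 ^ j + d2) / 2 ^ (k - j) = 2 * b + 1 := by omega
        simp only [mem_union, mem_Bd]
        rcases ha with ha | ha <;> rcases hb with hb | hb <;> rw [ha, hb] at hN <;> tauto
      have hc : ((Bd F lam (k + 1) a b).card : ℝ) ≤
          ((Bd F lam k (2 * a) (2 * b)).card + (Bd F lam k (2 * a) (2 * b + 1)).card) +
            ((Bd F lam k (2 * a + 1) (2 * b)).card +
              (Bd F lam k (2 * a + 1) (2 * b + 1)).card) := by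
        have h1 := card_le_card hsub
        have h2 := card_union_le (Bd F lam k (2 * a) (2 * b) ∪ Bd F lam k (2 * a) (2 * b + 1))
          (Bd F lam k (2 * a + 1) (2 * b) ∪ Bd F lam k (2 * a + 1) (2 * b + 1))
        have h3 := card_union_le (Bd F lam k (2 * a) (2 * b)) (Bd F lam k (2 * a) (2 * b + 1))
        have h4 := card_union_le (Bd F lam k (2 * a + 1) (2 * b))
          (Bd F lam k (2 * a + 1) (2 * b + 1))
        have h5 : (Bd F lam (k + 1) a b).card ≤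
            ((Bd F lam k (2 * a) (2 * b)).card + (Bd F lam k (2 * a) (2 * b + 1)).card) +
            ((Bd F lam k (2 * a + 1) (2 * b)).card +
              (Bd F lam k (2 * a + 1) (2 * b + 1)).card) := by omega
        exact_mod_cast h5
      rw [Sq_succ]
      have i1 := ih (2 * a) (2 * b)
      have i2 := ih (2 * a) (2 * b + 1)
      have i3 := ih (2 * a + 1) (2 * b)
      have i4 := ih (2 * a + 1) (2 * b + 1)
      calc lam * (Bd F lam (k + 1) a b).card ≤ lam *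
          (((Bd F lam k (2 * a) (2 * b)).card + (Bd F lam k (2 * a) (2 * b + 1)).card) +
            ((Bd F lam k (2 * a + 1) (2 * b)).card +
              (Bd F lam k (2 * a + 1) (2 * b + 1)).card)) := by gcongr
        _ ≤ _ := by linarith

/-! ### The maximal function -/

/-- the index set of the maximal function of depth `l` -/
def mi (l : ℕ) : Finset (ℕ × ℤ × ℤ) := range (l + 1) ×ˢ Icc (-1) 1 ×ˢ Icc (-1) 1

/-- the maximal function: squares of scale `≤ l` which contain the point or are neighbours -/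
def MF (F : ℤ → ℤ → ℝ) (l : ℕ) (w : ℤ × ℤ) : ℝ :=
  (((mi l).sup fun p => Real.toNNReal
    (Sq F p.1 (w.1 / 2 ^ p.1 + p.2.1) (w.2 / 2 ^ p.1 + p.2.2) / 4 ^ p.1) : NNReal) : ℝ)

theorem MF_nonneg (F : ℤ → ℤ → ℝ) (l : ℕ) (w : ℤ × ℤ) : 0 ≤ MF F l w := NNReal.coe_nonneg _

theorem le_MF {F : ℤ → ℤ → ℝ} (hF : ∀ x y, 0 ≤ F x y) {l j : ℕ} (hj : j ≤ l) {d1 d2 : ℤ}
    (h1 : -1 ≤ d1 ∧ d1 ≤ 1) (h2 : -1 ≤ d2 ∧ d2 ≤ 1) (w : ℤ × ℤ) :
    Sq F j (w.1 / 2 ^ j + d1) (w.2 / 2 ^ j + d2) / 4 ^ j ≤ MF F l w := by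
  have hm : (j, d1, d2) ∈ mi l := by
    unfold mi
    simp only [mem_product, mem_range, mem_Icc]
    exact ⟨by omega, h1, h2⟩
  have h := Finset.le_sup (f := fun p : ℕ × ℤ × ℤ => Real.toNNReal
    (Sq F p.1 (w.1 / 2 ^ p.1 + p.2.1) (w.2 / 2 ^ p.1 + p.2.2) / 4 ^ p.1)) hm
  have h3 := NNReal.coe_le_coe.2 h
  rwa [Real.coe_toNNReal _ (div_nonneg (Sq_nonneg hF _ _ _) (by positivity))] at h3

theorem lt_MF {F : ℤ → ℤ → ℝ} {l : ℕ} {w : ℤ × ℤ} {lam : ℝ} (hl : 0 ≤ lam) (h : lam < MF F l w) :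
    ∃ j ≤ l, ∃ d1 d2 : ℤ, (-1 ≤ d1 ∧ d1 ≤ 1) ∧ (-1 ≤ d2 ∧ d2 ≤ 1) ∧
      lam * 4 ^ j < Sq F j (w.1 / 2 ^ j + d1) (w.2 / 2 ^ j + d2) := by
  have h1 : Real.toNNReal lam < (mi l).sup fun p : ℕ × ℤ × ℤ => Real.toNNReal
      (Sq F p.1 (w.1 / 2 ^ p.1 + p.2.1) (w.2 / 2 ^ p.1 + p.2.2) / 4 ^ p.1) := by
    rw [← NNReal.coe_lt_coe, Real.coe_toNNReal _ hl]; exact h
  obtain ⟨p, hp, h2⟩ := (Finset.lt_sup_iff).1 h1
  unfold mi at hp
  simp only [mem_product, mem_range, mem_Icc] at hp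
  have h3 := (Real.toNNReal_lt_toNNReal_iff_of_nonneg hl).1 h2
  rw [lt_div_iff₀ (by positivity)] at h3
  exact ⟨p.1, by omega, p.2.1, p.2.2, hp.2.1, hp.2.2, h3⟩

/-- Weak type for a function supported in the square `(l, a, b)`. -/
theorem weak {F : ℤ → ℤ → ℝ} (hF : ∀ x y, 0 ≤ F x y) {l : ℕ} {a b : ℤ}
    (hs : ∀ x y, F x y ≠ 0 → x / 2 ^ l = a ∧ y / 2 ^ l = b) {lam : ℝ} (hl : 0 < lam)
    (s : Finset (ℤ × ℤ)) :
    lam * ((s.filter fun w => lam < MF F l w).card : ℝ) ≤ 9 * Sq F l a b := by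
  classical
  refine le_trans ?_ (card_Bd F hF hl l a b)
  refine mul_le_mul_of_nonneg_left ?_ hl.le
  have hsub : (s.filter fun w => lam < MF F l w) ⊆ Bd F lam l a b := by
    intro w hw
    rw [mem_filter] at hw
    obtain ⟨j, hj, d1, d2, h1, h2, h3⟩ := lt_MF hl.le hw.2
    have h4 : 0 < Sq F j (w.1 / 2 ^ j + d1) (w.2 / 2 ^ j + d2) :=
      lt_of_le_of_lt (by positivity) h3
    obtain ⟨x, hx, h5⟩ := Finset.exists_ne_zero_of_sum_ne_zero h4.ne'
    obtain ⟨y, hy, h6⟩ := Finset.exists_ne_zero_of_sum_ne_zero h5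
    obtain ⟨h7, h8⟩ := hs x y h6
    have e : (2 : ℤ) ^ l = 2 ^ j * 2 ^ (l - j) := by rw [← pow_add]; congr 1; omega
    have hp : (0 : ℤ) ≤ 2 ^ j := by positivity
    rw [e, ← Int.ediv_ediv_of_nonneg hp] at h7 h8
    rw [mem_ic.1 hx] at h7
    rw [mem_ic.1 hy] at h8
    exact mem_Bd.2 ⟨j, hj, d1, d2, h1, h2, h7, h8, h3⟩
  exact_mod_cast card_le_card hsub

/-! ### Kolmogorov's inequality -/

theorem one_sub_two_rpow {e : ℝ} (h0 : 0 ≤ e) (h1 : e ≤ 1) : e / 2 ≤ 1 - (2 : ℝ) ^ (-e) := by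
  have hc : ConvexOn ℝ Set.univ (fun x : ℝ => (2 : ℝ) ^ x) := by
    have := convexOn_exp.comp_linearMap (LinearMap.mulLeft ℝ (Real.log 2))
    refine ⟨convex_univ, fun x _ y _ p q hp hq hpq => ?_⟩
    have h := this.2 (Set.mem_univ x) (Set.mem_univ y) hp hq hpq
    simp only [Function.comp, LinearMap.mulLeft_apply] at h
    simp only [Real.rpow_def_of_pos (by norm_num : (0 : ℝ) < 2)]
    exact h
  have h := hc.2 (Set.mem_univ 0) (Set.mem_univ (-1)) (by linarith : 0 ≤ 1 - e) h0 (by ring)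
  simp only [smul_eq_mul, mul_zero, zero_add, Real.rpow_zero, mul_neg, mul_one] at h
  rw [Real.rpow_neg_one] at h
  linarith

theorem pointwise {lam : ℝ} (hl : 0 < lam) {e : ℝ} (h1 : e ≤ 1) {g : ℝ} (hg : 0 ≤ g)
    (J : ℕ) (hJ : g ≤ 2 ^ J * lam) :
    g ^ (1 - e) ≤ lam ^ (1 - e) +
      ∑ j ∈ range J, if 2 ^ j * lam < g then (2 ^ (j + 1) * lam) ^ (1 - e) else 0 := by
  induction J with
  | zero =>
    simp only [pow_zero, one_mul] at hJ
    simpa using Real.rpow_le_rpow hg hJ (by linarith)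
  | succ J ih =>
    rw [sum_range_succ]
    by_cases h : 2 ^ J * lam < g
    · rw [if_pos h]
      have h2 : g ^ (1 - e) ≤ (2 ^ (J + 1) * lam) ^ (1 - e) :=
        Real.rpow_le_rpow hg hJ (by linarith)
      have h3 : 0 ≤ lam ^ (1 - e) := Real.rpow_nonneg hl.le _
      have h4 : 0 ≤ ∑ j ∈ range J, if 2 ^ j * lam < g then (2 ^ (j + 1) * lam) ^ (1 - e) else 0 :=
        sum_nonneg fun j _ => by
          split_ifs
          · exact Real.rpow_nonneg (by positivity) _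
          · exact le_rfl
      linarith
    · rw [if_neg h, add_zero]
      exact ih (not_lt.1 h)

theorem kolmogorov {X : Type*} (s : Finset X) (g : X → ℝ) (hg : ∀ x ∈ s, 0 ≤ g x) {B : ℝ}
    (hB0 : 0 ≤ B) (hB : ∀ lam : ℝ, 0 < lam → lam * ((s.filter fun x => lam < g x).card : ℝ) ≤ B)
    {e : ℝ} (h0 : 0 < e) (h1 : e ≤ 1) {lam : ℝ} (hl : 0 < lam) :
    ∑ x ∈ s, g x ^ (1 - e) ≤ lam ^ (1 - e) * s.card + 4 / e * B * lam ^ (-e) := by
  obtain ⟨J, hJ⟩ : ∃ J : ℕ, ∀ x ∈ s, g x ≤ 2 ^ J * lam := by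
    obtain ⟨J, hJ⟩ := pow_unbounded_of_one_lt ((∑ x ∈ s, g x) / lam) (by norm_num : (1 : ℝ) < 2)
    refine ⟨J, fun x hx => ?_⟩
    have h2 : g x ≤ ∑ x ∈ s, g x := single_le_sum hg hx
    rw [div_lt_iff₀ hl] at hJ
    linarith
  have hstep : ∑ x ∈ s, g x ^ (1 - e) ≤ ∑ x ∈ s, (lam ^ (1 - e) +
      ∑ j ∈ range J, if 2 ^ j * lam < g x then (2 ^ (j + 1) * lam) ^ (1 - e) else 0) :=
    sum_le_sum fun x hx => pointwise hl h1 (hg x hx) J (hJ x hx)
  refine hstep.trans ?_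
  rw [sum_add_distrib, sum_const, nsmul_eq_mul, mul_comm (s.card : ℝ), sum_comm]
  refine add_le_add le_rfl ?_
  have hj : ∀ j ∈ range J, (∑ x ∈ s, if 2 ^ j * lam < g x then (2 ^ (j + 1) * lam) ^ (1 - e)
      else 0) ≤ 2 * B * lam ^ (-e) * ((2 : ℝ) ^ (-e)) ^ j := by
    intro j _
    rw [← sum_filter, sum_const, nsmul_eq_mul]
    have hp : 0 < 2 ^ j * lam := by positivity
    have h2 := hB _ hp
    have h3 : (2 ^ (j + 1) * lam) ^ (1 - e) = 2 ^ (1 - e) * ((2 ^ j * lam) * (2 ^ j * lam) ^ (-e)) := by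
      rw [show (2 : ℝ) ^ (j + 1) * lam = 2 * (2 ^ j * lam) by ring,
        Real.mul_rpow (by norm_num) hp.le]
      congr 1
      rw [show 1 - e = 1 + -e by ring, Real.rpow_add hp, Real.rpow_one]
    have h4 : (2 ^ j * lam) ^ (-e) = lam ^ (-e) * ((2 : ℝ) ^ (-e)) ^ j := by
      rw [Real.mul_rpow (by positivity) hl.le, mul_comm]
      congr 1
      rw [← Real.rpow_natCast, ← Real.rpow_natCast, ← Real.rpow_mul (by norm_num),
        ← Real.rpow_mul (by norm_num)]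
      congr 1
      ring
    have h5 : (2 : ℝ) ^ (1 - e) ≤ 2 := by
      calc (2 : ℝ) ^ (1 - e) ≤ 2 ^ (1 : ℝ) :=
            Real.rpow_le_rpow_of_exponent_le (by norm_num) (by linarith)
        _ = 2 := Real.rpow_one _
    rw [h3, h4]
    have h6 : 0 ≤ lam ^ (-e) * ((2 : ℝ) ^ (-e)) ^ j := by positivity
    calc ((s.filter fun x => 2 ^ j * lam < g x).card : ℝ) *
          (2 ^ (1 - e) * (2 ^ j * lam * (lam ^ (-e) * ((2 : ℝ) ^ (-e)) ^ j)))
        = (2 ^ j * lam * ((s.filter fun x => 2 ^ j * lam < g x).card : ℝ)) * 2 ^ (1 - e) *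
          (lam ^ (-e) * ((2 : ℝ) ^ (-e)) ^ j) := by ring
      _ ≤ B * 2 * (lam ^ (-e) * ((2 : ℝ) ^ (-e)) ^ j) := by gcongr
      _ = _ := by ring
  refine (sum_le_sum hj).trans ?_
  rw [← mul_sum]
  have hr0 : (0 : ℝ) ≤ (2 : ℝ) ^ (-e) := by positivity
  have hr1 : (2 : ℝ) ^ (-e) < 1 := Real.rpow_lt_one_of_one_lt_of_neg (by norm_num) (by linarith)
  have hgeo : ∑ j ∈ range J, ((2 : ℝ) ^ (-e)) ^ j ≤ 2 / e := by
    have h2 : ∑ j ∈ range J, ((2 : ℝ) ^ (-e)) ^ j ≤ 1 / (1 - (2 : ℝ) ^ (-e)) := by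
      rw [geom_sum_eq hr1.ne, ← neg_div_neg_eq, neg_sub, neg_sub]
      exact div_le_div_of_nonneg_right (by linarith [pow_nonneg hr0 J]) (by linarith)
    have h3 := one_sub_two_rpow h0.le h1
    refine h2.trans ?_
    rw [div_le_div_iff₀ (by linarith) h0]
    linarith
  have h7 : 0 ≤ 2 * B * lam ^ (-e) := by positivity
  calc 2 * B * lam ^ (-e) * ∑ j ∈ range J, ((2 : ℝ) ^ (-e)) ^ j
      ≤ 2 * B * lam ^ (-e) * (2 / e) := mul_le_mul_of_nonneg_left hgeo h7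
    _ = _ := by ring

end

end Vale.Agent.P141.H782
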