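import Vale.Agent.P141.H782.Max2
import Vale.Agent.P141.PL.H318.Sys1

/-!
# P141: mixed-scale gluing, abstract form

A function on `ℤ` is given on cells (of the grid `gr c0 σ`) of DIFFERENT scales `m x`; on the cell
of `x` its lift is controlled on the face cubes of scale `m x`.  The cells are strips on the face
cubes.  The lift is then controlled on every face cube of scale `l ≥ m` by the sum of any point
function which dominates the densities of the weights on the neighbouring cubes.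
-/

namespace Vale.Agent.P141.H782

open Finset
open Vale.Agent.P141.H315 (Grid)
open Vale.Agent.P141.PL (Pt el)
open Vale.Agent.P141.PL.H315 (cube3 mem_cube3 gz card_cube3 avg sum_avg_cubes)
open Vale.Agent.P141.PL.H318 (ixs csz two_cells_el)

noncomputable section

/-- the 27 cubes of scale `k` around the cube of `z` -/
def bl3 (k : ℕ) (z : Pt) : Finset Pt :=
  bl k (z.1 / 2 ^ k) ×ˢ bl k (z.2.1 / 2 ^ k) ×ˢ bl k (z.2.2 / 2 ^ k)

theorem mem_bl3 {k : ℕ} {z y : Pt} : y ∈ bl3 k z ↔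
    (z.1 / 2 ^ k - 1 ≤ y.1 / 2 ^ k ∧ y.1 / 2 ^ k ≤ z.1 / 2 ^ k + 1) ∧
    (z.2.1 / 2 ^ k - 1 ≤ y.2.1 / 2 ^ k ∧ y.2.1 / 2 ^ k ≤ z.2.1 / 2 ^ k + 1) ∧
    (z.2.2 / 2 ^ k - 1 ≤ y.2.2 / 2 ^ k ∧ y.2.2 / 2 ^ k ≤ z.2.2 / 2 ^ k + 1) := by
  unfold bl3
  rw [mem_product, mem_product, mem_bl, mem_bl, mem_bl]

theorem card_bl3 (k : ℕ) (z : Pt) : (bl3 k z).card = 27 * 8 ^ k := by
  unfold bl3
  rw [card_product, card_product, card_bl, card_bl, card_bl,
    show (8 : ℕ) = 2 * 2 * 2 by norm_num, mul_pow, mul_pow]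
  ring

theorem bl3_symm {k : ℕ} {z y : Pt} : y ∈ bl3 k z ↔ z ∈ bl3 k y := by
  rw [mem_bl3, mem_bl3]
  constructor <;> rintro ⟨⟨_, _⟩, ⟨_, _⟩, ⟨_, _⟩⟩ <;>
    refine ⟨⟨?_, ?_⟩, ⟨?_, ?_⟩, ⟨?_, ?_⟩⟩ <;> linarith

theorem div_mem_iv {k : ℕ} {x y : ℤ} (h : y ∈ Vale.Agent.P141.PL.H315.iv k x) :
    y / 2 ^ k = x / 2 ^ k := Vale.Agent.P141.PL.H315.mem_iv.1 h

theorem ediv_le_of {a b d : ℤ} {k l : ℕ} (hkl : k ≤ l) (h : a / 2 ^ k ≤ b / 2 ^ k + d)
    (hd : d ≤ 1) : a / 2 ^ l ≤ b / 2 ^ l + 1 := by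
  have e : (2 : ℤ) ^ l = 2 ^ k * 2 ^ (l - k) := by rw [← pow_add]; congr 1; omega
  have hp : (0 : ℤ) < 2 ^ (l - k) := by positivity
  have hk : (0 : ℤ) ≤ 2 ^ k := by positivity
  rw [e, ← Int.ediv_ediv_of_nonneg hk, ← Int.ediv_ediv_of_nonneg hk]
  have h1 : a / 2 ^ k / 2 ^ (l - k) ≤ (b / 2 ^ k + 1 * 2 ^ (l - k)) / 2 ^ (l - k) :=
    Int.ediv_le_ediv hp (by linarith)
  rwa [Int.add_mul_ediv_right _ _ hp.ne'] at h1

theorem bl3_mono {k l : ℕ} (hkl : k ≤ l) {z y : Pt} (h : y ∈ bl3 k z) : y ∈ bl3 l z := by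
  rw [mem_bl3] at h ⊢
  obtain ⟨⟨a1, a2⟩, ⟨b1, b2⟩, ⟨c1, c2⟩⟩ := h
  refine ⟨⟨?_, ?_⟩, ⟨?_, ?_⟩, ⟨?_, ?_⟩⟩
  · have := ediv_le_of (a := z.1) (b := y.1) (d := 1) hkl (by linarith) le_rfl; linarith
  · exact ediv_le_of (d := 1) hkl a2 le_rfl
  · have := ediv_le_of (a := z.2.1) (b := y.2.1) (d := 1) hkl (by linarith) le_rfl; linarith
  · exact ediv_le_of (d := 1) hkl b2 le_rfl
  · have := ediv_le_of (a := z.2.2) (b := y.2.2) (d := 1) hkl (by linarith) le_rfl; linarith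
  · exact ediv_le_of (d := 1) hkl c2 le_rfl

theorem bl3_congr {k : ℕ} {z z' : Pt} (h : z' ∈ cube3 k z) : bl3 k z' = bl3 k z := by
  rw [mem_cube3] at h
  unfold bl3
  rw [div_mem_iv h.1, div_mem_iv h.2.1, div_mem_iv h.2.2]

/-- the sign of an integer, never zero -/
def sg (a : ℤ) : ℤ := if 0 ≤ a then 1 else -1

theorem mul_sg (a : ℤ) : a * sg a = |a| := by
  unfold sg
  split_ifs with h
  · rw [mul_one, abs_of_nonneg h]
  · rw [abs_of_neg (not_le.1 h)]; ring

theorem sg_cases (a : ℤ) : sg a = 1 ∨ sg a = -1 := by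
  unfold sg; split_ifs <;> simp

theorem near_add {x d p : ℤ} (hp : 0 < p) (h1 : -p ≤ d) (h2 : d ≤ p) :
    x / p - 1 ≤ (x + d) / p ∧ (x + d) / p ≤ x / p + 1 := by
  constructor
  · have h : x / p ≤ (x + d + 1 * p) / p := Int.ediv_le_ediv hp (by linarith)
    rw [Int.add_mul_ediv_right _ _ hp.ne'] at h
    linarith
  · have h : (x + d) / p ≤ (x + 1 * p) / p := Int.ediv_le_ediv hp (by linarith)
    rwa [Int.add_mul_ediv_right _ _ hp.ne'] at h

open Classical in
/-- the good points near a cube which meets a cell of its own scale -/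
theorem many_good {c0 : ℕ} {σ : ℤ} {c : Pt} (hc : csz c ≤ 2 ^ c0) (k : ℕ) {P : ℤ → Prop}
    (hP : ∀ x y, P x → ixs c0 σ k y = ixs c0 σ k x → P y) {z y0 : Pt} (hy0 : y0 ∈ cube3 k z)
    (hg : P (el c y0)) {M : Pt → ℝ} {v : ℝ} (hv : 0 ≤ v) (hM0 : ∀ y, 0 ≤ M y)
    (hM : ∀ y ∈ bl3 k z, v ≤ 8 ^ k * M y) :
    v ≤ 8 * ∑ y ∈ bl3 k z, if P (el c y) then M y else 0 := by
  set L : ℤ := 2 ^ (k + c0) with hL
  have hLp : 0 < L := by positivity
  set r : ℤ := (el c y0 + σ) % L with hr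
  have hr0 : 0 ≤ r := Int.emod_nonneg _ hLp.ne'
  have hr1 : r < L := Int.emod_lt_of_pos _ hLp
  -- the direction
  obtain ⟨D, hD, hDr⟩ : ∃ D : ℤ, (D = 1 ∨ D = -1) ∧ ((D = 1 ∧ 2 * r < L) ∨ (D = -1 ∧ L ≤ 2 * r)) := by
    rcases lt_or_ge (2 * r) L with h | h
    · exact ⟨1, Or.inl rfl, Or.inl ⟨rfl, h⟩⟩
    · exact ⟨-1, Or.inr rfl, Or.inr ⟨rfl, h⟩⟩
  set h : ℕ := (2 ^ k + 1) / 2 with hh
  have hk1 : 1 ≤ 2 ^ k := Nat.one_le_two_pow
  have h2h : 2 ^ k ≤ 2 * h := by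
    rcases Nat.eq_zero_or_pos k with rfl | hk
    · simp [hh]
    · obtain ⟨j, rfl⟩ : ∃ j, k = j + 1 := ⟨k - 1, by omega⟩
      rw [hh, pow_succ]; omega
  have hh1 : 1 ≤ h := by omega
  have hhk : 2 * (h - 1) ≤ 2 ^ k - 1 := by omega
  let ψ : ℕ × ℕ × ℕ → Pt := fun a => (y0.1 + D * (sg c.1 * a.1), y0.2.1 + D * (sg c.2.1 * a.2.1),
    y0.2.2 + D * (sg c.2.2 * a.2.2))
  set S : Finset (ℕ × ℕ × ℕ) := range h ×ˢ range h ×ˢ range h with hS
  have hinj : Set.InjOn ψ S := by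
    intro a _ b _ hab
    simp only [ψ, Prod.mk.injEq, add_right_inj] at hab
    obtain ⟨e1, e2, e3⟩ := hab
    have key : ∀ (t : ℤ) (m n : ℕ), D * (sg t * m) = D * (sg t * n) → m = n := by
      intro t m n hmn
      rcases hD with rfl | rfl <;> rcases sg_cases t with ht | ht <;> rw [ht] at hmn <;>
        · omega
    exact Prod.ext (key _ _ _ e1) (Prod.ext (key _ _ _ e2) (key _ _ _ e3))
  have hy := mem_cube3.1 hy0
  have hbound : ∀ a ∈ range h, (a : ℤ) ≤ h - 1 := by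
    intro a ha
    rw [mem_range] at ha
    have : (a : ℤ) < h := by exact_mod_cast ha
    linarith
  have hhz : 2 * ((h : ℤ) - 1) ≤ 2 ^ k - 1 := by
    have : 2 * h ≤ 2 ^ k + 1 := by omega
    have h3 : (2 : ℤ) * h ≤ 2 ^ k + 1 := by exact_mod_cast this
    linarith
  have hmem : ∀ a ∈ S, ψ a ∈ bl3 k z ∧ P (el c (ψ a)) := by
    intro a ha
    rw [hS, mem_product, mem_product] at ha
    have b1 := hbound _ ha.1
    have b2 := hbound _ ha.2.1
    have b3 := hbound _ ha.2.2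
    have n1 : (0 : ℤ) ≤ a.1 := Int.natCast_nonneg _
    have n2 : (0 : ℤ) ≤ a.2.1 := Int.natCast_nonneg _
    have n3 : (0 : ℤ) ≤ a.2.2 := Int.natCast_nonneg _
    have hkz : (1 : ℤ) ≤ 2 ^ k := one_le_pow₀ (by norm_num)
    have hp : (0 : ℤ) < 2 ^ k := by positivity
    have hd : ∀ (t x : ℤ), 0 ≤ x → x ≤ h - 1 →
        -(2 ^ k : ℤ) ≤ D * (sg t * x) ∧ D * (sg t * x) ≤ 2 ^ k := by
      intro t x hx0 hx
      rcases hD with rfl | rfl <;> rcases sg_cases t with ht | ht <;> rw [ht] <;>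
        constructor <;> linarith
    constructor
    · rw [mem_bl3]
      have i1 := near_add (x := y0.1) hp (hd c.1 _ n1 b1).1 (hd c.1 _ n1 b1).2
      have i2 := near_add (x := y0.2.1) hp (hd c.2.1 _ n2 b2).1 (hd c.2.1 _ n2 b2).2
      have i3 := near_add (x := y0.2.2) hp (hd c.2.2 _ n3 b3).1 (hd c.2.2 _ n3 b3).2
      rw [div_mem_iv hy.1] at i1
      rw [div_mem_iv hy.2.1] at i2
      rw [div_mem_iv hy.2.2] at i3
      exact ⟨i1, i2, i3⟩
    · refine hP _ _ hg ?_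
      set T : ℤ := |c.1| * a.1 + |c.2.1| * a.2.1 + |c.2.2| * a.2.2 with hT
      have hT0 : 0 ≤ T := by positivity
      have hT1 : 2 * T < L := by
        have h1 : T ≤ csz c * (h - 1) := by
          have := mul_le_mul_of_nonneg_left b1 (abs_nonneg c.1)
          have := mul_le_mul_of_nonneg_left b2 (abs_nonneg c.2.1)
          have := mul_le_mul_of_nonneg_left b3 (abs_nonneg c.2.2)
          rw [hT]; unfold csz; linarith
        have hcs : 0 ≤ csz c := by unfold csz; positivity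
        have h4 : L = 2 ^ c0 * 2 ^ k := by rw [hL, pow_add]; ring
        have h5 : (0 : ℤ) < 2 ^ c0 := by positivity
        have h6 : csz c * (2 * (h - 1)) ≤ 2 ^ c0 * (2 ^ k - 1) := by
          have h7 : csz c * (2 * (h - 1)) ≤ csz c * (2 ^ k - 1) :=
            mul_le_mul_of_nonneg_left hhz hcs
          have h8 : csz c * (2 ^ k - 1) ≤ 2 ^ c0 * (2 ^ k - 1) :=
            mul_le_mul_of_nonneg_right hc (by linarith)
          linarith
        have h9 : 2 * T ≤ csz c * (2 * (h - 1)) := by linarith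
        rw [h4]; linarith
      have hel : el c (ψ a) = el c y0 + D * T := by
        simp only [ψ, el, hT, ← mul_sg]; ring
      unfold ixs
      rw [hel, ← hL]
      have e1 : el c y0 + σ = L * ((el c y0 + σ) / L) + r := by
        rw [hr]; exact (Int.mul_ediv_add_emod _ _).symm
      have e2 : el c y0 + D * T + σ = (r + D * T) + ((el c y0 + σ) / L) * L := by
        linear_combination e1
      rw [e2, Int.add_mul_ediv_right _ _ hLp.ne']
      have e3 : (r + D * T) / L = 0 := by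
        refine Int.ediv_eq_zero_of_lt ?_ ?_
        · rcases hDr with ⟨rfl, h1⟩ | ⟨rfl, h1⟩ <;> linarith
        · rcases hDr with ⟨rfl, h1⟩ | ⟨rfl, h1⟩ <;> linarith
      rw [e3, zero_add]
  have h1 : ∑ y ∈ S.image ψ, M y ≤ ∑ y ∈ bl3 k z, if P (el c y) then M y else 0 := by
    rw [← sum_filter]
    refine sum_le_sum_of_subset_of_nonneg ?_ fun y _ _ => hM0 y
    intro y hy
    obtain ⟨a, ha, rfl⟩ := mem_image.1 hy
    rw [mem_filter]
    exact hmem a ha
  have h2 : (h : ℝ) ^ 3 * v ≤ 8 ^ k * ∑ y ∈ S.image ψ, M y := by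
    rw [sum_image hinj, mul_sum]
    have h3 : ∑ a ∈ S, v ≤ ∑ a ∈ S, 8 ^ k * M (ψ a) :=
      sum_le_sum fun a ha => hM _ (hmem a ha).1
    rw [sum_const, nsmul_eq_mul, hS, card_product, card_product, card_range] at h3
    push_cast at h3
    linarith
  have h3 : (8 : ℝ) ^ k ≤ 8 * (h : ℝ) ^ 3 := by
    have h4 : ((2 : ℝ) ^ k) ≤ 2 * h := by exact_mod_cast h2h
    calc (8 : ℝ) ^ k = (2 ^ k) ^ 3 := by rw [← pow_mul, mul_comm, pow_mul]; norm_num
      _ ≤ (2 * h) ^ 3 := pow_le_pow_left₀ (by positivity) h4 3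
      _ = _ := by ring
  have h5 : 8 ^ k * v ≤ 8 ^ k * (8 * ∑ y ∈ bl3 k z, if P (el c y) then M y else 0) := by
    calc 8 ^ k * v ≤ 8 * (h : ℝ) ^ 3 * v := mul_le_mul_of_nonneg_right h3 hv
      _ = 8 * ((h : ℝ) ^ 3 * v) := by ring
      _ ≤ 8 * (8 ^ k * ∑ y ∈ S.image ψ, M y) := by linarith
      _ ≤ 8 * (8 ^ k * ∑ y ∈ bl3 k z, if P (el c y) then M y else 0) := by gcongr
      _ = _ := by ring
  exact le_of_mul_le_mul_left h5 (by positivity)

open Classical in
/-- one scale, one cube: at most two cells of the own scale -/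
theorem one_cube {c0 : ℕ} {σ : ℤ} {c : Pt} (hc : csz c ≤ 2 ^ c0) (k : ℕ) {P : ℤ → Prop}
    (hP : ∀ x y, P x → ixs c0 σ k y = ixs c0 σ k x → P y) {φ : Pt → ℝ} {z : Pt} {v : ℝ}
    (hv : 0 ≤ v)
    (h : ∀ s, P s → |∑ y ∈ cube3 k z, if ixs c0 σ k (el c y) = ixs c0 σ k s then φ y else 0| ≤ v) :
    |∑ y ∈ cube3 k z, if P (el c y) then φ y else 0| ≤ 2 * v := by
  obtain ⟨m, hm⟩ := two_cells_el (c0 := c0) (σ := σ) hc k z
  have key : ∀ m' : ℤ, |∑ y ∈ cube3 k z, (if ixs c0 σ k (el c y) = m' then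
      (if P (el c y) then φ y else 0) else 0)| ≤ v := by
    intro m'
    by_cases hex : ∃ s, ixs c0 σ k s = m' ∧ P s
    · obtain ⟨s, hs, hPs⟩ := hex
      refine le_trans (le_of_eq ?_) (h s hPs)
      congr 1
      refine sum_congr rfl fun y _ => ?_
      by_cases hy : ixs c0 σ k (el c y) = m'
      · have hy' : ixs c0 σ k (el c y) = ixs c0 σ k s := by rw [hy, hs]
        have hPy : P (el c y) := hP s _ hPs hy'
        rw [if_pos (c := ixs c0 σ k (el c y) = m') hy, if_pos (c := P (el c y)) hPy,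
          if_pos (c := ixs c0 σ k (el c y) = ixs c0 σ k s) hy']
      · have hy' : ¬ ixs c0 σ k (el c y) = ixs c0 σ k s := by rw [hs]; exact hy
        rw [if_neg (c := ixs c0 σ k (el c y) = m') hy,
          if_neg (c := ixs c0 σ k (el c y) = ixs c0 σ k s) hy']
    · have h1 : ∑ y ∈ cube3 k z, (if ixs c0 σ k (el c y) = m' then
          (if P (el c y) then φ y else 0) else 0) = 0 := by
        refine sum_eq_zero fun y _ => ?_
        by_cases hy : ixs c0 σ k (el c y) = m'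
        · rw [if_pos hy, if_neg (fun h' => hex ⟨el c y, hy, h'⟩)]
        · rw [if_neg hy]
      rw [h1, abs_zero]; exact hv
  have hsplit : ∑ y ∈ cube3 k z, (if P (el c y) then φ y else 0) =
      (∑ y ∈ cube3 k z, (if ixs c0 σ k (el c y) = m then
        (if P (el c y) then φ y else 0) else 0)) +
      (∑ y ∈ cube3 k z, (if ixs c0 σ k (el c y) = m + 1 then
        (if P (el c y) then φ y else 0) else 0)) := by
    rw [← sum_add_distrib]
    refine sum_congr rfl fun y hy => ?_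
    rcases hm y hy with h | h
    · have h' : ixs c0 σ k (el c y) ≠ m + 1 := by omega
      rw [if_pos (c := ixs c0 σ k (el c y) = m) h,
        if_neg (c := ixs c0 σ k (el c y) = m + 1) h', add_zero]
    · have h' : ixs c0 σ k (el c y) ≠ m := by omega
      rw [if_neg (c := ixs c0 σ k (el c y) = m) h',
        if_pos (c := ixs c0 σ k (el c y) = m + 1) h, zero_add]
  rw [hsplit]
  refine (abs_add_le _ _).trans ?_
  have := key m
  have := key (m + 1)
  linarith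

open Classical in
/-- **MIXED GLUE**, abstract form. -/
theorem glue_abs {c0 : ℕ} {σ : ℤ} {c : Pt} (hc : csz c ≤ 2 ^ c0) {l : ℕ} {q : Pt}
    {m : ℤ → ℕ} {A : ℤ → Prop}
    (hm : ∀ x y, A x → ixs c0 σ (m x) y = ixs c0 σ (m x) x → A y ∧ m y = m x)
    (hml : ∀ x, A x → m x ≤ l) {φ : Pt → ℝ} {w : ℕ → Pt → ℝ} (hw : ∀ k z, 0 ≤ w k z)
    (h : ∀ s, A s → ∀ z ∈ cube3 l q,
      |∑ y ∈ cube3 (m s) z, if ixs c0 σ (m s) (el c y) = ixs c0 σ (m s) s then φ y else 0| ≤
        w (m s) z)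
    {M : Pt → ℝ} (hM0 : ∀ y, 0 ≤ M y)
    (hM : ∀ k ≤ l, ∀ z ∈ cube3 l q, ∀ y ∈ bl3 k z, w k z ≤ 8 ^ k * M y) :
    |∑ y ∈ cube3 l q, if A (el c y) then φ y else 0| ≤ 432 * ∑ y ∈ bl3 l q, M y := by
  obtain ⟨P, hPd⟩ : ∃ P : ℕ → ℤ → Prop, ∀ k x, P k x ↔ (A x ∧ m x = k) :=
    ⟨fun k x => A x ∧ m x = k, fun _ _ => Iff.rfl⟩
  have hP : ∀ k x y, P k x → ixs c0 σ k y = ixs c0 σ k x → P k y := by
    intro k x y h0 h2
    obtain ⟨h1, rfl⟩ := (hPd k x).1 h0
    obtain ⟨h3, h4⟩ := hm x y h1 h2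
    exact (hPd _ y).2 ⟨h3, h4⟩
  have hsplit : ∑ y ∈ cube3 l q, (if A (el c y) then φ y else 0) =
      ∑ k ∈ range (l + 1), ∑ y ∈ cube3 l q, if P k (el c y) then φ y else 0 := by
    rw [sum_comm]
    refine sum_congr rfl fun y _ => ?_
    by_cases hA : A (el c y)
    · rw [if_pos hA, sum_eq_single (m (el c y))]
      · rw [if_pos ((hPd _ _).2 ⟨hA, rfl⟩)]
      · intro k _ hk
        rw [if_neg]
        intro h0
        exact hk ((hPd _ _).1 h0).2.symm
      · intro h2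
        exact absurd (mem_range.2 (Nat.lt_succ_of_le (hml _ hA))) h2
    · rw [if_neg hA]
      refine (sum_eq_zero fun k _ => ?_).symm
      rw [if_neg (fun h' => hA ((hPd _ _).1 h').1)]
  have hk : ∀ k ∈ range (l + 1), |∑ y ∈ cube3 l q, (if P k (el c y) then φ y else 0)| ≤
      432 * ∑ y ∈ bl3 l q, if P k (el c y) then M y else 0 := by
    intro k hkl
    have hkl : k ≤ l := by rw [mem_range] at hkl; omega
    have e1 : ∑ y ∈ cube3 l q, (if P k (el c y) then φ y else 0) =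
        ∑ z ∈ cube3 l q, (8 ^ k : ℝ)⁻¹ * ∑ y ∈ cube3 k z, (if P k (el c y) then φ y else 0) := by
      have h2 := sum_avg_cubes gz hkl q (fun y => if P k (el c y) then φ y else 0)
      rw [← show gz.cube l q = cube3 l q from rfl, ← h2]
      refine sum_congr rfl fun z _ => ?_
      unfold avg
      rw [show gz.cube k z = cube3 k z from rfl, card_cube3]
      push_cast
      rfl
    have h8 : (0 : ℝ) < (8 ^ k : ℝ)⁻¹ := by positivity
    have hz : ∀ z ∈ cube3 l q, |(8 ^ k : ℝ)⁻¹ * ∑ y ∈ cube3 k z,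
        (if P k (el c y) then φ y else 0)| ≤
        16 * (8 ^ k : ℝ)⁻¹ * ∑ y ∈ bl3 k z, if P k (el c y) then M y else 0 := by
      intro z hzq
      rw [abs_mul, abs_of_pos h8]
      by_cases hex : ∃ y0 ∈ cube3 k z, P k (el c y0)
      · obtain ⟨y0, hy0, hPy⟩ := hex
        have h2 : |∑ y ∈ cube3 k z, (if P k (el c y) then φ y else 0)| ≤ 2 * w k z := by
          refine one_cube hc k (hP k) (hw k z) ?_
          intro s h0
          obtain ⟨hA, rfl⟩ := (hPd k s).1 h0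
          exact h s hA z hzq
        have h3 := many_good (z := z) hc k (hP k) hy0 hPy (hw k z) hM0 (hM k hkl z hzq)
        calc (8 ^ k : ℝ)⁻¹ * |∑ y ∈ cube3 k z, (if P k (el c y) then φ y else 0)|
            ≤ (8 ^ k : ℝ)⁻¹ * (2 * w k z) := mul_le_mul_of_nonneg_left h2 h8.le
          _ ≤ (8 ^ k : ℝ)⁻¹ * (2 * (8 * ∑ y ∈ bl3 k z, if P k (el c y) then M y else 0)) :=
              mul_le_mul_of_nonneg_left (by linarith) h8.le
          _ = _ := by ring
      · have h2 : ∑ y ∈ cube3 k z, (if P k (el c y) then φ y else 0) = 0 :=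
          sum_eq_zero fun y hy => by
            rw [if_neg (fun h' => hex ⟨y, hy, h'⟩)]
        rw [h2, abs_zero, mul_zero]
        refine mul_nonneg (by positivity) (sum_nonneg fun y _ => ?_)
        split_ifs
        · exact hM0 y
        · exact le_rfl
    rw [e1]
    refine (abs_sum_le_sum_abs _ _).trans ((sum_le_sum hz).trans ?_)
    rw [← mul_sum]
    -- exchange
    have h4 : ∑ z ∈ cube3 l q, ∑ y ∈ bl3 k z, (if P k (el c y) then M y else 0) ≤
        ∑ y ∈ bl3 l q, (27 * 8 ^ k : ℝ) * (if P k (el c y) then M y else 0) := by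
      have h5 : ∀ z ∈ cube3 l q, ∑ y ∈ bl3 k z, (if P k (el c y) then M y else 0) =
          ∑ y ∈ bl3 l q, if y ∈ bl3 k z then (if P k (el c y) then M y else 0) else 0 := by
        intro z hzq
        have h6 : bl3 k z = (bl3 l q).filter fun y => y ∈ bl3 k z := by
          ext y
          rw [mem_filter]
          refine ⟨fun hy => ⟨?_, hy⟩, fun hy => hy.2⟩
          have := bl3_mono hkl hy
          rwa [bl3_congr hzq] at this
        conv_lhs => rw [h6]
        rw [sum_filter]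
      rw [sum_congr rfl h5, sum_comm]
      refine sum_le_sum fun y _ => ?_
      rw [← sum_filter, sum_const, nsmul_eq_mul]
      have h6 : (((cube3 l q).filter fun z => y ∈ bl3 k z).card : ℝ) ≤ 27 * 8 ^ k := by
        have h7 : ((cube3 l q).filter fun z => y ∈ bl3 k z) ⊆ bl3 k y := by
          intro z hz
          rw [mem_filter] at hz
          exact bl3_symm.1 hz.2
        have h8 := card_le_card h7
        rw [card_bl3] at h8
        exact_mod_cast h8
      refine mul_le_mul_of_nonneg_right h6 ?_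
      split_ifs
      · exact hM0 y
      · exact le_rfl
    rw [← mul_sum] at h4
    calc 16 * (8 ^ k : ℝ)⁻¹ * ∑ z ∈ cube3 l q, ∑ y ∈ bl3 k z, (if P k (el c y) then M y else 0)
        ≤ 16 * (8 ^ k : ℝ)⁻¹ * ((27 * 8 ^ k : ℝ) *
          ∑ y ∈ bl3 l q, (if P k (el c y) then M y else 0)) :=
          mul_le_mul_of_nonneg_left h4 (by positivity)
      _ = 16 * 27 * ((8 ^ k : ℝ)⁻¹ * 8 ^ k) *
          ∑ y ∈ bl3 l q, (if P k (el c y) then M y else 0) := by ring
      _ = _ := by rw [inv_mul_cancel₀ (by positivity)]; norm_num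
  rw [hsplit]
  refine (abs_sum_le_sum_abs _ _).trans ((sum_le_sum hk).trans ?_)
  rw [← mul_sum, sum_comm]
  refine mul_le_mul_of_nonneg_left (sum_le_sum fun y _ => ?_) (by norm_num)
  by_cases hA : A (el c y)
  · rw [sum_eq_single (m (el c y))]
    · rw [if_pos ((hPd _ _).2 ⟨hA, rfl⟩)]
    · intro k _ hk
      rw [if_neg]
      intro h0
      exact hk ((hPd _ _).1 h0).2.symm
    · intro h2
      exact absurd (mem_range.2 (Nat.lt_succ_of_le (hml _ hA))) h2
  · rw [sum_eq_zero fun k _ => by rw [if_neg (fun h' : P k (el c y) => hA ((hPd _ _).1 h').1)]]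
    exact hM0 y

end

end Vale.Agent.P141.H782
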