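import Vale.Agent.P141.PL.H855.BootB
import Vale.Agent.P141.PL.H95.Top

/-!
# P141, line W, module T1: nodes and cells, roles, the limit

* `nbr`, `sum_nbr`, `bel_nbr`: the nodes which meet a bad cell of `gr 7 s`;
* `nd_tele`: the difference of two levels is a sum of four roles;
* `nd_lim`: the node form of a uniform function and three bounded ones.
-/

namespace Vale.Agent.P141.H782

open Finset
open Vale.Agent.P141.H315 (Grid dot)
open Vale.Agent.P141.PL (Pt el fc lift Bx iv)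
open Vale.Agent.P141.PL.H315 (le cube3 wt Tri atm)
open Vale.Agent.P141.PL.H314 (nd Win nd_congr nd_add4 nd_eq)
open Vale.Agent.P141.PL.H571 (W)
open Vale.Agent.P141.PL.H95 (gr gr_cube mem_gr W_sub mem_W shf exists_type)
open Vale.Agent.P141.PL.H855 (Bel Bad wN Dat)

noncomputable section

/-! ### Nodes and cells -/

open Classical in
/-- the nodes of the scale of the cell `c = (k, x)` whose window meets the cell -/
def nbr (s : ℤ) (𝒩 : Finset (ℕ × ℤ)) (c : ℕ × ℤ) : Finset (ℕ × ℤ) :=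
  𝒩.filter fun N => N.1 = c.1 ∧ ∃ y ∈ W N.1 N.2, y ∈ (gr 7 s).cube c.1 c.2

theorem nbr_sub (s : ℤ) (𝒩 : Finset (ℕ × ℤ)) (c : ℕ × ℤ) : nbr s 𝒩 c ⊆ 𝒩 := filter_subset _ _

theorem mem_nbr {s : ℤ} {𝒩 : Finset (ℕ × ℤ)} {c N : ℕ × ℤ} : N ∈ nbr s 𝒩 c ↔
    N ∈ 𝒩 ∧ N.1 = c.1 ∧ ∃ y ∈ W N.1 N.2, y ∈ (gr 7 s).cube c.1 c.2 := by
  unfold nbr; rw [mem_filter]

theorem card_nbr (s : ℤ) (𝒩 : Finset (ℕ × ℤ)) (c : ℕ × ℤ) : (nbr s 𝒩 c).card ≤ 2 ^ 8 := by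
  classical
  obtain ⟨k, x⟩ := c
  set b : ℤ := 2 ^ (k + 7) * ((x + s) / 2 ^ (k + 7)) - s with hb
  have hk : (0 : ℤ) < 2 ^ k := by positivity
  have hsub : nbr s 𝒩 (k, x) ⊆ (Ico (b / 2 ^ k - 16) (b / 2 ^ k + 240)).image fun v => (k, v) := by
    intro N hN
    obtain ⟨_, h1, y, h2, h3⟩ := mem_nbr.1 hN
    obtain ⟨k', v⟩ := N
    simp only at h1
    subst h1
    rw [mem_W] at h2
    rw [gr_cube, mem_Ico] at h3
    simp only at h2 h3
    rw [← hb] at h3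
    have e7 : (2 : ℤ) ^ (k' + 7) = 2 ^ k' * 128 := by rw [pow_add]; norm_num
    rw [e7] at h3
    have q1 := Int.mul_ediv_add_emod b (2 ^ k')
    have q2 := Int.emod_nonneg b hk.ne'
    have q3 := Int.emod_lt_of_pos b hk
    refine mem_image.2 ⟨v, mem_Ico.2 ⟨?_, ?_⟩, rfl⟩
    · have h4 : 2 ^ k' * (b / 2 ^ k') < 2 ^ k' * (v + 16) := by linarith [h2.2, h3.1]
      have := lt_of_mul_lt_mul_left h4 hk.le
      linarith
    · have h4 : 2 ^ k' * (v - 16) < 2 ^ k' * (b / 2 ^ k' + 129) := by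
        have : 2 ^ k' * (b / 2 ^ k' + 129) = 2 ^ k' * (b / 2 ^ k') + 2 ^ k' * 128 + 2 ^ k' := by
          ring
        linarith [h2.1, h3.2]
      have := lt_of_mul_lt_mul_left h4 hk.le
      linarith
  refine (card_le_card hsub).trans (card_image_le.trans ?_)
  rw [Int.card_Ico]
  have : b / 2 ^ k + 240 - (b / 2 ^ k - 16) = 256 := by ring
  rw [this]; norm_num

theorem sum_nbr (s : ℤ) (𝒩 : Finset (ℕ × ℤ)) (c : ℕ × ℤ) :
    ∑ N ∈ nbr s 𝒩 c, (2 : ℝ) ^ N.1 ≤ 2 ^ 8 * 2 ^ c.1 := by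
  have h1 : ∀ N ∈ nbr s 𝒩 c, (2 : ℝ) ^ N.1 = 2 ^ c.1 := fun N hN => by
    rw [(mem_nbr.1 hN).2.1]
  rw [sum_congr rfl h1, sum_const, nsmul_eq_mul]
  refine mul_le_mul_of_nonneg_right ?_ (by positivity)
  exact_mod_cast card_nbr s 𝒩 c

/-- a node which reads a cell below `c` is below one of the nodes of `c` -/
theorem bel_nbr {s : ℤ} {𝒩 : Finset (ℕ × ℤ)} {K : ℕ}
    (hcl : ∀ N ∈ 𝒩, ∀ k', N.1 ≤ k' → k' ≤ K → (k', N.2 / 2 ^ (k' - N.1)) ∈ 𝒩)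
    {c : ℕ × ℤ} (hc : c.1 ≤ K) {N : ℕ × ℤ} (hN : N ∈ 𝒩) (hNc : N.1 ≤ c.1)
    (h : le N ∈ (gr 7 s).cube c.1 c.2) : ∃ Q ∈ nbr s 𝒩 c, Bel N Q := by
  refine ⟨(c.1, N.2 / 2 ^ (c.1 - N.1)), mem_nbr.2 ⟨hcl N hN _ hNc hc, rfl, le N, ?_, h⟩, hNc, rfl⟩
  refine W_sub hNc N.2 ?_
  rw [mem_W]
  unfold le
  have : (0 : ℤ) < 2 ^ N.1 := by positivity
  constructor
  · exact le_rfl
  · nlinarith

/-- the nodes of a finite family of bad cells -/
def bn (s : ℤ) (𝒩 𝒞 : Finset (ℕ × ℤ)) : Finset (ℕ × ℤ) := by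
  classical exact 𝒞.biUnion (nbr s 𝒩)

theorem bn_sub (s : ℤ) (𝒩 𝒞 : Finset (ℕ × ℤ)) : bn s 𝒩 𝒞 ⊆ 𝒩 := by
  unfold bn; exact biUnion_subset.2 fun c _ => nbr_sub s 𝒩 c

theorem sum_bn (s : ℤ) (𝒩 𝒞 : Finset (ℕ × ℤ)) :
    ∑ N ∈ bn s 𝒩 𝒞, (2 : ℝ) ^ N.1 ≤ 2 ^ 8 * ∑ c ∈ 𝒞, (2 : ℝ) ^ c.1 := by
  classical
  unfold bn
  rw [mul_sum]
  calc ∑ N ∈ 𝒞.biUnion (nbr s 𝒩), (2 : ℝ) ^ N.1 ≤ ∑ c ∈ 𝒞, ∑ N ∈ nbr s 𝒩 c, (2 : ℝ) ^ N.1 :=
        sum_biUnion_le 𝒞 (nbr s 𝒩)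
    _ ≤ _ := sum_le_sum fun c _ => sum_nbr s 𝒩 c
where
  sum_biUnion_le (𝒞 : Finset (ℕ × ℤ)) (t : ℕ × ℤ → Finset (ℕ × ℤ)) [DecidableEq (ℕ × ℤ)] :
      ∑ N ∈ 𝒞.biUnion t, (2 : ℝ) ^ N.1 ≤ ∑ c ∈ 𝒞, ∑ N ∈ t c, (2 : ℝ) ^ N.1 := by
    induction 𝒞 using Finset.induction_on with
    | empty => simp
    | insert a s ha ih =>
      rw [biUnion_insert, sum_insert ha]
      have h := sum_union_inter (s₁ := t a) (s₂ := s.biUnion t) (f := fun N => (2 : ℝ) ^ N.1)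
      have h2 : 0 ≤ ∑ N ∈ t a ∩ s.biUnion t, (2 : ℝ) ^ N.1 := sum_nonneg fun _ _ => by positivity
      linarith

/-- a node which is not below the nodes of the bad cells reads no cell below a bad cell -/
theorem not_bad_bn {s : ℤ} {𝒩 𝒞 : Finset (ℕ × ℤ)} {K : ℕ}
    (hcl : ∀ N ∈ 𝒩, ∀ k', N.1 ≤ k' → k' ≤ K → (k', N.2 / 2 ^ (k' - N.1)) ∈ 𝒩)
    (h𝒞 : ∀ c ∈ 𝒞, c.1 ≤ K) {N : ℕ × ℤ} (hN : N ∈ 𝒩) (hb : ¬ Bad (bn s 𝒩 𝒞) N) :
    ∀ c ∈ 𝒞, N.1 ≤ c.1 → le N ∉ (gr 7 s).cube c.1 c.2 := by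
  classical
  intro c hc hNc h
  obtain ⟨Q, hQ, hB⟩ := bel_nbr hcl (h𝒞 c hc) hN hNc h
  exact hb ⟨Q, by unfold bn; exact mem_biUnion.2 ⟨c, hc, hQ⟩, hB⟩

/-! ### Roles -/

/-- the role `i` of the step `j`: the slots before `i` are of the new level, the slots after `i` of
the old level -/
def rl (R R' : Fin 4 → ℤ → ℝ) (i : Fin 4) : Fin 4 → ℤ → ℝ :=
  fun m => if m < i then R' m else if m = i then R m - R' m else R m

theorem nd_tele (o : ℤ) (k : ℕ) (v : ℤ) (R R' : Fin 4 → ℤ → ℝ) :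
    nd o k v R - nd o k v R' = ∑ i, nd o k v (rl R R' i) := by
  have h := nd_add4 o k v
  have e : ∀ f : Fin 4 → ℤ → ℝ, f = ![f 0, f 1, f 2, f 3] := by
    intro f; funext i; fin_cases i <;> rfl
  have r0 : rl R R' 0 = ![R 0 - R' 0, R 1, R 2, R 3] := by
    funext i; fin_cases i <;> rfl
  have r1 : rl R R' 1 = ![R' 0, R 1 - R' 1, R 2, R 3] := by
    funext i; fin_cases i <;> rfl
  have r2 : rl R R' 2 = ![R' 0, R' 1, R 2 - R' 2, R 3] := by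
    funext i; fin_cases i <;> rfl
  have r3 : rl R R' 3 = ![R' 0, R' 1, R' 2, R 3 - R' 3] := by
    funext i; fin_cases i <;> rfl
  rw [Fin.sum_univ_four, r0, r1, r2, r3]
  have h0 := h.sub0 (R 0) (R' 0) (R 1) (R 2) (R 3)
  have h1 := h.sub1 (R' 0) (R 1) (R' 1) (R 2) (R 3)
  have h2 := h.sub2 (R' 0) (R' 1) (R 2) (R' 2) (R 3)
  have h3 := h.sub3 (R' 0) (R' 1) (R' 2) (R 3) (R' 3)
  rw [h0, h1, h2, h3, ← e R, ← e R']
  ring

theorem abs_nd_tele (o : ℤ) (k : ℕ) (v : ℤ) (R R' : Fin 4 → ℤ → ℝ) :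
    |nd o k v R - nd o k v R'| ≤ ∑ i, |nd o k v (rl R R' i)| := by
  rw [nd_tele]
  exact abs_sum_le_sum_abs _ _

/-! ### The limit -/

theorem iv_eq3 (l : ℕ) (j : ℤ) : iv l j = Vale.Agent.P141.PL.H315.iv l (2 ^ l * j) := by
  unfold iv Vale.Agent.P141.PL.H315.iv
  rw [Int.mul_ediv_cancel_left _ (by positivity)]

theorem Nm_le_of_abs {X : Type*} {e : ℝ} (h0 : 0 ≤ e) (h1 : e ≤ 1) {Q : Finset X} {f : X → ℝ}
    {B : ℝ} (hB : 0 ≤ B) (hf : ∀ x ∈ Q, |f x| ≤ B) : Vale.Agent.P141.PL.H315.Nm e Q f ≤ B := by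
  rcases Q.eq_empty_or_nonempty with rfl | hQ
  · unfold Vale.Agent.P141.PL.H315.Nm Vale.Agent.P141.PL.H315.avg Vale.Agent.P141.PL.H315.mx
    simp only [card_empty, Nat.cast_zero, inv_zero, sum_empty, mul_zero, sup_empty]
    rcases h1.eq_or_lt with rfl | h1
    · simp only [sub_self, zero_div, Real.rpow_zero, bot_eq_zero', NNReal.coe_zero, Real.rpow_one,
        mul_zero]
      exact hB
    · rw [Real.zero_rpow (by linarith), zero_mul]
      exact hB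
  · unfold Vale.Agent.P141.PL.H315.Nm
    have hc : (0 : ℝ) < Q.card := by exact_mod_cast hQ.card_pos
    have h2 : Vale.Agent.P141.PL.H315.avg Q (fun x => f x ^ 2) ≤ B ^ 2 := by
      unfold Vale.Agent.P141.PL.H315.avg
      rw [inv_mul_le_iff₀ hc, ← nsmul_eq_mul]
      refine sum_le_card_nsmul _ _ _ fun x hx => ?_
      have h5 := pow_le_pow_left₀ (abs_nonneg _) (hf x hx) 2
      rwa [sq_abs] at h5
    have h3 : (Vale.Agent.P141.PL.H315.avg Q fun x => f x ^ 2) ^ ((1 - e) / 2) ≤ B ^ (1 - e) := by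
      refine (Real.rpow_le_rpow (Vale.Agent.P141.PL.H315.avg_nonneg fun _ _ => sq_nonneg _) h2
        (by linarith)).trans (le_of_eq ?_)
      rw [← Real.rpow_natCast, ← Real.rpow_mul hB]
      congr 1; push_cast; ring
    have h4 : Vale.Agent.P141.PL.H315.mx Q f ^ e ≤ B ^ e :=
      Real.rpow_le_rpow (Vale.Agent.P141.PL.H315.mx_nonneg _ _)
        (Vale.Agent.P141.PL.H315.mx_le hB hf) h0
    refine (mul_le_mul h3 h4 (Real.rpow_nonneg (Vale.Agent.P141.PL.H315.mx_nonneg _ _) _)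
      (Real.rpow_nonneg hB _)).trans (le_of_eq ?_)
    rw [← Real.rpow_add_of_nonneg hB (by linarith) h0]
    norm_num

/-- **The node form of a uniform function and three bounded functions.** -/
theorem nd_lim {o : ℤ} (ho : o = 1 ∨ o = -1) {k : ℕ} (hk : 1 ≤ k) {v s : ℤ}
    (hW : Win k v ⊆ (gr 7 s).cube k (le (k, v))) {δ e B : ℝ} (hδ : 0 ≤ δ) (h0 : 0 ≤ e) (h1 : e ≤ 1)
    (hB : 0 ≤ B) {f : Fin 4 → ℤ → ℝ}
    (hu : ∀ t : Pt × Tri, |dot ((gr 7 s).cube k (le (k, v))) (f 0)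
      (Vale.Agent.P141.PL.H318.a1 (fc 0) k t)| ≤ wt δ e (cube3 k t.1) t.2)
    (hf : ∀ j : Fin 4, j ≠ 0 → ∀ y ∈ Win k v, |f j y| ≤ B) :
    |nd o k v f| ≤ 2 ^ k * δ * B ^ 3 := by
  classical
  -- truncate the functions outside the window
  set g : Fin 4 → ℤ → ℝ := fun j y => if y ∈ Win k v then f j y else 0 with hg
  have hgB : ∀ j : Fin 4, j ≠ 0 → ∀ y, |g j y| ≤ B := by
    intro j hj y
    simp only [hg]
    split_ifs with hy
    · exact hf j hj y hy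
    · rw [abs_zero]; exact hB
  have e1 : nd o k v f = nd o k v ![f 0, g 1, g 2, g 3] := by
    refine nd_congr ho fun j y hy => ?_
    fin_cases j
    · rfl
    · show f 1 y = g 1 y; simp only [hg, if_pos hy]
    · show f 2 y = g 2 y; simp only [hg, if_pos hy]
    · show f 3 y = g 3 y; simp only [hg, if_pos hy]
  rw [e1, nd_eq hk]
  simp only [Matrix.cons_val_zero, Matrix.cons_val_one, Matrix.cons_val]
  rw [abs_mul, abs_of_pos (by positivity), inv_mul_le_iff₀ (by positivity)]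
  -- the box form as a sum of tests
  set p : Pt := (2 ^ k * v, 0, 0) with hp
  set u : ℤ → Tri := fun x0 =>
    (fun w => Vale.Agent.P141.PL.hs k w.1 * Vale.Agent.P141.PL.hs k w.2 *
      lift 3 (g 3) (x0, w.1, w.2),
     fun w => Vale.Agent.P141.PL.hs k w.2 * lift 2 (g 2) (x0, w.1, w.2),
     fun w => lift 1 (g 1) (x0, w.1, w.2)) with hu'
  have hcube : cube3 k p = iv k v ×ˢ iv k 0 ×ˢ iv k 0 := by
    have i1 := iv_eq3 k v
    have i0 := iv_eq3 k 0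
    rw [mul_zero] at i0
    rw [i1, i0, hp]; rfl
  have hloc : Vale.Agent.P141.PL.loc k (o - 2 - v, v, 0, 0) (lift 0 (f 0)) (lift 1 (g 1))
      (lift 2 (g 2)) (lift 3 (g 3)) = ∑ x0 ∈ iv k (o - 2 - v), Vale.Agent.P141.PL.hs k x0 *
        ∑ y ∈ cube3 k p, f 0 (el (fc 0) y) * atm (u x0) y := by
    unfold Vale.Agent.P141.PL.loc
    refine sum_congr rfl fun x0 _ => ?_
    rw [hcube, sum_product, mul_sum]
    refine sum_congr rfl fun x1 _ => ?_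
    rw [sum_product, mul_sum]
    refine sum_congr rfl fun x2 _ => ?_
    rw [mul_sum]
    refine sum_congr rfl fun x3 _ => ?_
    simp only [hu', atm, Vale.Agent.P141.PL.H315.e12, Vale.Agent.P141.PL.H315.e13,
      Vale.Agent.P141.PL.H315.e23, Vale.Agent.P141.PL.prd, lift]
    ring
  rw [hloc]
  have hk2 : (0 : ℤ) < 2 ^ k := by positivity
  have hel : ∀ y ∈ cube3 k p, el (fc 0) y ∈ (gr 7 s).cube k (le (k, v)) := by
    intro y hy
    refine hW ?_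
    rw [hcube, mem_product, mem_product] at hy
    obtain ⟨h2, h3, h4⟩ := hy
    unfold iv at h2 h3 h4
    rw [mem_Ico] at h2 h3 h4
    unfold Win
    rw [mem_Ico]
    simp only [el, fc]
    constructor
    · nlinarith [h2.1, h3.1, h4.1]
    · nlinarith [h2.2, h3.2, h4.2]
  have hone : ∀ x0 ∈ iv k (o - 2 - v), |Vale.Agent.P141.PL.hs k x0 *
      ∑ y ∈ cube3 k p, f 0 (el (fc 0) y) * atm (u x0) y| ≤ δ * 8 ^ k * B ^ 3 := by
    intro x0 _
    rw [abs_mul, Vale.Agent.P141.PL.abs_hs, one_mul]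
    have h2 := hu (p, u x0)
    rw [Vale.Agent.P141.PL.H318.dot_a1] at h2
    have h3 : ∑ y ∈ cube3 k p, (if el (fc 0) y ∈ (gr 7 s).cube k (le (k, v)) then
        f 0 (el (fc 0) y) * atm (u x0) y else 0) =
        ∑ y ∈ cube3 k p, f 0 (el (fc 0) y) * atm (u x0) y :=
      sum_congr rfl fun y hy => if_pos (hel y hy)
    rw [h3] at h2
    refine h2.trans ?_
    unfold wt
    rw [Vale.Agent.P141.PL.H315.card_cube3]
    push_cast
    have n12 : Vale.Agent.P141.PL.H315.Nm e (cube3 k p) (Vale.Agent.P141.PL.H315.e12 (u x0).1) ≤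
        B := Nm_le_of_abs h0 h1 hB fun y _ => by
      simp only [hu', Vale.Agent.P141.PL.H315.e12, lift]
      rw [abs_mul, abs_mul, Vale.Agent.P141.PL.abs_hs, Vale.Agent.P141.PL.abs_hs, one_mul, one_mul]
      exact hgB 3 (by decide) _
    have n13 : Vale.Agent.P141.PL.H315.Nm e (cube3 k p)
        (Vale.Agent.P141.PL.H315.e13 (u x0).2.1) ≤ B := Nm_le_of_abs h0 h1 hB fun y _ => by
      simp only [hu', Vale.Agent.P141.PL.H315.e13, lift]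
      rw [abs_mul, Vale.Agent.P141.PL.abs_hs, one_mul]
      exact hgB 2 (by decide) _
    have n23 : Vale.Agent.P141.PL.H315.Nm e (cube3 k p)
        (Vale.Agent.P141.PL.H315.e23 (u x0).2.2) ≤ B := Nm_le_of_abs h0 h1 hB fun y _ => by
      simp only [hu', Vale.Agent.P141.PL.H315.e23, lift]
      exact hgB 1 (by decide) _
    have p12 := Vale.Agent.P141.PL.H315.Nm_nonneg e (cube3 k p)
      (Vale.Agent.P141.PL.H315.e12 (u x0).1)
    have p13 := Vale.Agent.P141.PL.H315.Nm_nonneg e (cube3 k p)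
      (Vale.Agent.P141.PL.H315.e13 (u x0).2.1)
    have p23 := Vale.Agent.P141.PL.H315.Nm_nonneg e (cube3 k p)
      (Vale.Agent.P141.PL.H315.e23 (u x0).2.2)
    have h4 := mul_le_mul (mul_le_mul n12 n13 p13 hB) n23 p23 (mul_nonneg hB hB)
    calc _ ≤ δ * 8 ^ k * (B * B * B) := mul_le_mul_of_nonneg_left h4 (by positivity)
      _ = _ := by ring
  refine (abs_sum_le_sum_abs _ _).trans ((sum_le_card_nsmul _ _ _ hone).trans ?_)
  rw [Vale.Agent.P141.PL.card_iv, nsmul_eq_mul]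
  push_cast
  refine le_of_eq ?_
  ring

/-- values are bounded by the energy -/
theorem abs_le_of_dot {Q : Finset ℤ} {f : ℤ → ℝ} {E : ℝ} (h : dot Q f f ≤ E) {y : ℤ} (hy : y ∈ Q) :
    |f y| ≤ √E := by
  refine Real.abs_le_sqrt ?_
  refine le_trans ?_ h
  unfold dot
  rw [sq]
  exact single_le_sum (f := fun x => f x * f x) (fun x _ => mul_self_nonneg _) hy

end

end Vale.Agent.P141.H782
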