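import Vale.Agent.P141.H782.Top1

/-!
# P141, line W, module T1: level systems from paths on the cells

`LvPaths`: for every level `j ≥ j0` and every type `b` of nodes four paths (functions of the scale),
finite families of bad cells, and the bounds of the roles on the good nodes.
`lvSysB_of_paths`: this gives the level system of `H855.BootB`.
-/

namespace Vale.Agent.P141.H782

open Finset
open Vale.Agent.P141.H315 (Grid dot)
open Vale.Agent.P141.PL (Pt el fc lift Bx iv)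
open Vale.Agent.P141.PL.H315 (le cube3 wt Tri atm)
open Vale.Agent.P141.PL.H314 (nd Win nd_congr)
open Vale.Agent.P141.PL.H571 (W)
open Vale.Agent.P141.PL.H95 (gr gr_cube mem_gr card_gr W_sub mem_W shf)
open Vale.Agent.P141.PL.H855 (Bel Bad wN Dat gd gdU mem_gd mem_gdU LvSysB)

noncomputable section

/-- the cells of the nodes of the type `b` -/
def Typ (n : ℕ) (b : Bool) (N : ℕ × ℤ) : Prop :=
  Win N.1 N.2 ⊆ (gr 7 (shf (n + 7) b)).cube N.1 (le N)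

theorem exists_typ {n : ℕ} {N : ℕ × ℤ} (hN : N.1 ≤ n) : ∃ b, Typ n b N :=
  Vale.Agent.P141.PL.H95.exists_type hN

open Classical in
/-- the type of a node -/
def ty (n : ℕ) (N : ℕ × ℤ) : Bool := if Typ n true N then true else false

theorem typ_ty {n : ℕ} {N : ℕ × ℤ} (hN : N.1 ≤ n) : Typ n (ty n N) N := by
  unfold ty
  split_ifs with h
  · exact h
  · obtain ⟨b, hb⟩ := exists_typ hN
    cases b
    · exact hb
    · exact absurd hb h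

/-- a node of a closure which reads no cell below a bad cell -/
def Fre (n : ℕ) (b : Bool) (𝒞 : Finset (ℕ × ℤ)) (N : ℕ × ℤ) : Prop :=
  ∀ c ∈ 𝒞, N.1 ≤ c.1 → le N ∉ (gr 7 (shf (n + 7) b)).cube c.1 c.2

open Classical in
/-- the good nodes of the type `b`, levels `j0, …, j` -/
def gdN (n : ℕ) (b : Bool) (𝒩 : Finset (ℕ × ℤ)) (𝒞 : ℕ → Finset (ℕ × ℤ)) (j0 j : ℕ) :
    Finset (ℕ × ℤ) :=
  𝒩.filter fun N => ty n N = b ∧ ∀ i, j0 ≤ i → i ≤ j → Fre n b (𝒞 i) N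

theorem mem_gdN {n : ℕ} {b : Bool} {𝒩 : Finset (ℕ × ℤ)} {𝒞 : ℕ → Finset (ℕ × ℤ)} {j0 j : ℕ}
    {N : ℕ × ℤ} : N ∈ gdN n b 𝒩 𝒞 j0 j ↔
      N ∈ 𝒩 ∧ ty n N = b ∧ ∀ i, j0 ≤ i → i ≤ j → Fre n b (𝒞 i) N := by
  unfold gdN; simp only [mem_filter]

/-- **The paths of all the levels on the cells.**  `R j b i k` = residual function of the level
`j`, the type `b`, the slot `i` at the scale `k`; `𝒞 j b` = bad cells; `δ j` = level of uniformity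
of the slot `0`. -/
structure LvPaths (ρ C : ℝ) (A j0 n : ℕ) (E e : ℝ) (δ : ℕ → ℝ) (f : Fin 4 → ℤ → ℝ) (o : ℤ)
    (K : ℕ) (𝒩 : Finset (ℕ × ℤ)) (R : ℕ → Bool → Fin 4 → ℕ → ℤ → ℝ)
    (𝒞 : ℕ → Bool → Finset (ℕ × ℤ)) : Prop where
  e0 : 0 ≤ e
  e1 : e ≤ 1
  δ0 : ∀ j, 0 ≤ δ j
  lim : ∀ ε : ℝ, 0 < ε → ∃ J, ∀ j, J ≤ j → δ j ≤ ε
  cell : ∀ j b, ∀ c ∈ 𝒞 j b, c.1 ≤ K
  bad : ∀ j, j0 ≤ j → ∀ b, ∑ c ∈ 𝒞 j b, (2 : ℝ) ^ c.1 ≤ C * ρ ^ j * 2 ^ K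
  unif : ∀ j, j0 ≤ j → ∀ N ∈ 𝒩, (∀ i, j0 ≤ i → i ≤ j → Fre n (ty n N) (𝒞 i (ty n N)) N) →
    ∀ t : Pt × Tri, |dot ((gr 7 (shf (n + 7) (ty n N))).cube N.1 (le N)) (R j (ty n N) 0 N.1)
      (Vale.Agent.P141.PL.H318.a1 (fc 0) N.1 t)| ≤ wt (δ j) e (cube3 N.1 t.1) t.2
  energy : ∀ j, j0 ≤ j → ∀ N ∈ 𝒩, (∀ i, j0 ≤ i → i ≤ j → Fre n (ty n N) (𝒞 i (ty n N)) N) →
    ∀ i, dot ((gr 7 (shf (n + 7) (ty n N))).cube N.1 (le N)) (R j (ty n N) i N.1)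
      (R j (ty n N) i N.1) ≤ C * 2 ^ N.1
  first : ∀ b i, ∑ N ∈ gdN n b 𝒩 (fun j => 𝒞 j b) j0 j0,
    |nd o N.1 N.2 (rl f (fun m => R j0 b m N.1) i)| ≤ (C * 2 ^ (A * j0) + C * ρ ^ j0 * E) * 2 ^ K
  step : ∀ j, j0 ≤ j → ∀ b i, ∑ N ∈ gdN n b 𝒩 (fun j => 𝒞 j b) j0 (j + 1),
    |nd o N.1 N.2 (rl (fun m => R j b m N.1) (fun m => R (j + 1) b m N.1) i)| ≤
      C * ρ ^ j * E * 2 ^ K

/-- the bad nodes of a level -/
def bdN (n : ℕ) (𝒩 : Finset (ℕ × ℤ)) (𝒞 : Bool → Finset (ℕ × ℤ)) : Finset (ℕ × ℤ) := by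
  classical exact bn (shf (n + 7) false) 𝒩 (𝒞 false) ∪ bn (shf (n + 7) true) 𝒩 (𝒞 true)

theorem bn_sub_bdN (n : ℕ) (𝒩 : Finset (ℕ × ℤ)) (𝒞 : Bool → Finset (ℕ × ℤ)) (b : Bool) :
    bn (shf (n + 7) b) 𝒩 (𝒞 b) ⊆ bdN n 𝒩 𝒞 := by
  classical
  unfold bdN
  cases b
  · exact subset_union_left
  · exact subset_union_right

theorem fre_of_not_bad {n K : ℕ} {𝒩 : Finset (ℕ × ℤ)} {𝒞 : Bool → Finset (ℕ × ℤ)}
    (hcl : ∀ N ∈ 𝒩, ∀ k', N.1 ≤ k' → k' ≤ K → (k', N.2 / 2 ^ (k' - N.1)) ∈ 𝒩)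
    (h𝒞 : ∀ b, ∀ c ∈ 𝒞 b, c.1 ≤ K) {N : ℕ × ℤ} (hN : N ∈ 𝒩) (hb : ¬ Bad (bdN n 𝒩 𝒞) N)
    (b : Bool) : Fre n b (𝒞 b) N := by
  refine not_bad_bn hcl (h𝒞 b) hN ?_
  rintro ⟨Q, hQ, hB⟩
  exact hb ⟨Q, bn_sub_bdN n 𝒩 𝒞 b hQ, hB⟩

/-- **T1**: the level system. -/
theorem lvSysB_of_paths {q ρ C H E e : ℝ} {A j0 n K : ℕ} {δ : ℕ → ℝ} {f : Fin 4 → ℤ → ℝ}
    {o V : ℤ} {𝒩 : Finset (ℕ × ℤ)} {R : ℕ → Bool → Fin 4 → ℕ → ℤ → ℝ}
    {𝒞 : ℕ → Bool → Finset (ℕ × ℤ)} (hd : Dat q n H f o K V 𝒩)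
    (hρ : 0 ≤ ρ) (hC : 0 ≤ C) (hE : 0 ≤ E) (h : LvPaths ρ C A j0 n E e δ f o K 𝒩 R 𝒞) :
    LvSysB ρ (2 ^ 9 * C) A j0 E f o K 𝒩
      (fun j N => nd o N.1 N.2 fun i => R j (ty n N) i N.1) (fun j => bdN n 𝒩 (𝒞 j)) := by
  classical
  have hwN : ∀ N, wN o f N = nd o N.1 N.2 f := fun N => rfl
  have hfre : ∀ j, ∀ N ∈ 𝒩, ¬ Bad (bdN n 𝒩 (𝒞 j)) N → ∀ b, Fre n b (𝒞 j b) N :=
    fun j N hN hb b => fre_of_not_bad hd.cl (h.cell j) hN hb b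
  refine ⟨?_, ?_, ?_, ?_, ?_⟩
  · intro j _
    unfold bdN
    exact union_subset (bn_sub _ _ _) (bn_sub _ _ _)
  · intro j hj
    have h1 : ∑ Q ∈ bdN n 𝒩 (𝒞 j), (2 : ℝ) ^ Q.1 ≤
        ∑ Q ∈ bn (shf (n + 7) false) 𝒩 (𝒞 j false), (2 : ℝ) ^ Q.1 +
        ∑ Q ∈ bn (shf (n + 7) true) 𝒩 (𝒞 j true), (2 : ℝ) ^ Q.1 := by
      unfold bdN
      have h := sum_union_inter (s₁ := bn (shf (n + 7) false) 𝒩 (𝒞 j false))
        (s₂ := bn (shf (n + 7) true) 𝒩 (𝒞 j true)) (f := fun N => (2 : ℝ) ^ N.1)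
      have h2 : 0 ≤ ∑ N ∈ bn (shf (n + 7) false) 𝒩 (𝒞 j false) ∩
        bn (shf (n + 7) true) 𝒩 (𝒞 j true), (2 : ℝ) ^ N.1 := sum_nonneg fun _ _ => by positivity
      linarith
    have h2 := sum_bn (shf (n + 7) false) 𝒩 (𝒞 j false)
    have h3 := sum_bn (shf (n + 7) true) 𝒩 (𝒞 j true)
    have h4 := h.bad j hj false
    have h5 := h.bad j hj true
    linarith
  · -- first
    have h1 : ∑ N ∈ gd 𝒩 (bdN n 𝒩 (𝒞 j0)), |wN o f N - nd o N.1 N.2 fun i => R j0 (ty n N) i N.1| ≤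
        ∑ b : Bool, ∑ i : Fin 4, ∑ N ∈ gdN n b 𝒩 (fun j => 𝒞 j b) j0 j0,
          |nd o N.1 N.2 (rl f (fun m => R j0 b m N.1) i)| := by
      have h2 : ∀ N ∈ gd 𝒩 (bdN n 𝒩 (𝒞 j0)),
          |wN o f N - nd o N.1 N.2 fun i => R j0 (ty n N) i N.1| ≤
          ∑ b : Bool, ∑ i : Fin 4, if N ∈ gdN n b 𝒩 (fun j => 𝒞 j b) j0 j0 then
            |nd o N.1 N.2 (rl f (fun m => R j0 b m N.1) i)| else 0 := by
        intro N hN
        obtain ⟨hN1, hN2⟩ := mem_gd.1 hN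
        have hmem : N ∈ gdN n (ty n N) 𝒩 (fun j => 𝒞 j (ty n N)) j0 j0 :=
          mem_gdN.2 ⟨hN1, rfl, fun i h3 h4 => by
            have : i = j0 := le_antisymm h4 h3
            subst this
            exact hfre _ N hN1 hN2 _⟩
        refine (abs_nd_tele o N.1 N.2 f (fun i => R j0 (ty n N) i N.1)).trans ?_
        refine le_trans (le_of_eq ?_) (single_le_sum (f := fun b : Bool => ∑ i : Fin 4,
          if N ∈ gdN n b 𝒩 (fun j => 𝒞 j b) j0 j0 then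
            |nd o N.1 N.2 (rl f (fun m => R j0 b m N.1) i)| else 0)
          (fun b _ => sum_nonneg fun i _ => by split_ifs <;> simp) (mem_univ (ty n N)))
        exact sum_congr rfl fun i _ => by rw [if_pos hmem]
      refine (sum_le_sum h2).trans ?_
      rw [sum_comm]
      refine sum_le_sum fun b _ => ?_
      rw [sum_comm]
      refine sum_le_sum fun i _ => ?_
      rw [← sum_filter]
      refine sum_le_sum_of_subset_of_nonneg ?_ fun _ _ _ => abs_nonneg _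
      intro N hN
      exact (mem_filter.1 hN).2
    have hX : 0 ≤ (C * 2 ^ (A * j0) + C * ρ ^ j0 * E) * 2 ^ K := by positivity
    have h2 : ∑ b : Bool, ∑ i : Fin 4, ∑ N ∈ gdN n b 𝒩 (fun j => 𝒞 j b) j0 j0,
          |nd o N.1 N.2 (rl f (fun m => R j0 b m N.1) i)| ≤
        ∑ b : Bool, ∑ i : Fin 4, (C * 2 ^ (A * j0) + C * ρ ^ j0 * E) * 2 ^ K :=
      sum_le_sum fun b _ => sum_le_sum fun i _ => h.first b i
    simp only [sum_const, card_univ, Fintype.card_fin, Fintype.card_bool, nsmul_eq_mul] at h2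
    push_cast at h2
    refine (h1.trans h2).trans ?_
    nlinarith
  · -- step
    intro j hj
    have h1 : ∑ N ∈ gdU j0 (j + 1) 𝒩 (fun j => bdN n 𝒩 (𝒞 j)),
        |(nd o N.1 N.2 fun i => R j (ty n N) i N.1) -
          nd o N.1 N.2 fun i => R (j + 1) (ty n N) i N.1| ≤
        ∑ b : Bool, ∑ i : Fin 4, ∑ N ∈ gdN n b 𝒩 (fun j => 𝒞 j b) j0 (j + 1),
          |nd o N.1 N.2 (rl (fun m => R j b m N.1) (fun m => R (j + 1) b m N.1) i)| := by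
      have h2 : ∀ N ∈ gdU j0 (j + 1) 𝒩 (fun j => bdN n 𝒩 (𝒞 j)),
          |(nd o N.1 N.2 fun i => R j (ty n N) i N.1) -
            nd o N.1 N.2 fun i => R (j + 1) (ty n N) i N.1| ≤
          ∑ b : Bool, ∑ i : Fin 4, if N ∈ gdN n b 𝒩 (fun j => 𝒞 j b) j0 (j + 1) then
            |nd o N.1 N.2 (rl (fun m => R j b m N.1) (fun m => R (j + 1) b m N.1) i)| else 0 := by
        intro N hN
        obtain ⟨hN1, hN2⟩ := mem_gdU.1 hN
        have hmem : N ∈ gdN n (ty n N) 𝒩 (fun j => 𝒞 j (ty n N)) j0 (j + 1) :=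
          mem_gdN.2 ⟨hN1, rfl, fun i h3 h4 => hfre _ N hN1 (hN2 i h3 h4) _⟩
        refine (abs_nd_tele o N.1 N.2 (fun i => R j (ty n N) i N.1)
          (fun i => R (j + 1) (ty n N) i N.1)).trans ?_
        refine le_trans (le_of_eq ?_) (single_le_sum (f := fun b : Bool => ∑ i : Fin 4,
          if N ∈ gdN n b 𝒩 (fun j => 𝒞 j b) j0 (j + 1) then
            |nd o N.1 N.2 (rl (fun m => R j b m N.1) (fun m => R (j + 1) b m N.1) i)| else 0)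
          (fun b _ => sum_nonneg fun i _ => by split_ifs <;> simp) (mem_univ (ty n N)))
        exact sum_congr rfl fun i _ => by rw [if_pos hmem]
      refine (sum_le_sum h2).trans ?_
      rw [sum_comm]
      refine sum_le_sum fun b _ => ?_
      rw [sum_comm]
      refine sum_le_sum fun i _ => ?_
      rw [← sum_filter]
      refine sum_le_sum_of_subset_of_nonneg ?_ fun _ _ _ => abs_nonneg _
      intro N hN
      exact (mem_filter.1 hN).2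
    have hX : 0 ≤ C * ρ ^ j * E * 2 ^ K := by positivity
    have h2 : ∑ b : Bool, ∑ i : Fin 4, ∑ N ∈ gdN n b 𝒩 (fun j => 𝒞 j b) j0 (j + 1),
          |nd o N.1 N.2 (rl (fun m => R j b m N.1) (fun m => R (j + 1) b m N.1) i)| ≤
        ∑ b : Bool, ∑ i : Fin 4, C * ρ ^ j * E * 2 ^ K :=
      sum_le_sum fun b _ => sum_le_sum fun i _ => h.step j hj b i
    simp only [sum_const, card_univ, Fintype.card_fin, Fintype.card_bool, nsmul_eq_mul] at h2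
    push_cast at h2
    refine (h1.trans h2).trans ?_
    nlinarith
  · -- limit
    intro N hN hb ε hε
    have hfr : ∀ j, ∀ i, j0 ≤ i → i ≤ j → Fre n (ty n N) (𝒞 i (ty n N)) N :=
      fun j i h1 _ => hfre i N hN (hb i h1) _
    set B : ℝ := √(C * 2 ^ N.1) with hB
    have hB0 : 0 ≤ B := Real.sqrt_nonneg _
    obtain ⟨J, hJ⟩ := h.lim (ε / (2 ^ N.1 * B ^ 3 + 1)) (by positivity)
    refine ⟨max J j0, fun j hj => ?_⟩
    have hj0 : j0 ≤ j := (le_max_right _ _).trans hj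
    have hjJ : J ≤ j := (le_max_left _ _).trans hj
    have hW := typ_ty (n := n) (N := N) ((hd.root N hN).2.1.trans hd.hK)
    have key := nd_lim (o := o) hd.ho (hd.root N hN).1 (v := N.2) (s := shf (n + 7) (ty n N)) hW
      (h.δ0 j) h.e0 h.e1 hB0 (f := fun i => R j (ty n N) i N.1)
      (h.unif j hj0 N hN (hfr j))
      (fun i _ y hy => abs_le_of_dot (h.energy j hj0 N hN (hfr j) i) (hW hy))
    refine key.trans ?_
    have h2 := hJ j hjJ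
    have h3 : 0 ≤ 2 ^ N.1 * B ^ 3 := by positivity
    calc (2 : ℝ) ^ N.1 * δ j * B ^ 3 = δ j * (2 ^ N.1 * B ^ 3) := by ring
      _ ≤ ε / (2 ^ N.1 * B ^ 3 + 1) * (2 ^ N.1 * B ^ 3) := mul_le_mul_of_nonneg_right h2 h3
      _ ≤ ε := by
        rw [div_mul_eq_mul_div, div_le_iff₀ (by positivity)]
        nlinarith

end

end Vale.Agent.P141.H782
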